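import Vale.Agent.P268.T.R996.EndVeq

/-!
# The end of the slide: the normal form of the end data is that of a braid
-/

set_option linter.unusedSectionVars false

namespace Vale.Agent.P268.T.R996

open Set Topology Metric
open scoped unitInterval Topology.Homotopy RealInnerProductSpace
open Vale.Agent.P268.H288 Vale.Agent.P268.T.A109
open Vale.Agent.P268.T.H839 (sg sg_ne sg_pos am Nb stB stN stV stA cubeAt clI)
open Vale.Agent.P268.T.H277 (SG c4 n4 nk2 Glet sc)

section Congr

variable {P V A : Type*} [NormedAddCommGroup P] [NormedSpace ℝ P]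
  [NormedAddCommGroup V] [InnerProductSpace ℝ V]

/-- The normal form depends on the values of the data on the unit ball only. -/
theorem NN_congr [Fintype A] {e : V} {ε R M : ℝ} {b ν b' ν' : A → P → V}
    (hb : ∀ a, ∀ x : P, ‖x‖ ≤ 1 → b a x = b' a x)
    (hν : ∀ a, ∀ x : P, ‖x‖ ≤ 1 → ν a x = ν' a x) :
    NN e ε R M b ν = NN e ε R M b' ν' := by
  have h : nplates e (fun _ : Unit => ε) (fun _ => R) (fun _ => M) (fun _ => b) (fun _ => ν) =
      nplates e (fun _ : Unit => ε) (fun _ => R) (fun _ => M) (fun _ => b') (fun _ => ν') := by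
    unfold nplates
    congr 1
    · funext τ a x
      cases a with
      | none => rfl
      | some a =>
        change x.2 - ‖x.1‖ • b a (kap x.1) = x.2 - ‖x.1‖ • b' a (kap x.1)
        rw [hb a _ (norm_kap_le x.1)]
    · funext τ a x
      cases a with
      | none => rfl
      | some a => exact hν a _ (norm_kap_le x.1)
  unfold NN
  rw [h]

theorem Adm_congr {ε R M : ℝ} {b b' : A → P → V}
    (hb : ∀ a, ∀ x : P, ‖x‖ ≤ 1 → b a x = b' a x) (h : Adm ε R M b) : Adm ε R M b' where
  hε := h.hε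
  hR := h.hR
  hM := h.hM
  hb a x hx := by
    rw [← hb a x (mem_closedBall_zero_iff.mp hx)]
    exact h.hb a x hx
  hd a a' haa x hx := by
    rw [← hb a x (mem_closedBall_zero_iff.mp hx), ← hb a' x (mem_closedBall_zero_iff.mp hx)]
    exact h.hd a a' haa x hx

end Congr

section NonePath

variable {V : Type*} [NormedAddCommGroup V] [InnerProductSpace ℝ V]

theorem none_path' (φ : Fr V) {c0 e2 : V} {L s g0 : ℝ} (he2 : ‖e2‖ = 1)
    (hee : ⟪e2, φ.e⟫ = 0) (hc0 : ∃ a : ℝ, 0 ≤ a ∧ c0 = a • φ.e) (hL : 8 ≤ L) (hs : 0 < s)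
    (hs8 : 8 * s ≤ 1) (hg0 : |g0| = 1) {ρ : ℝ} (hρ : L ^ 2 ≤ ρ) {t : ℝ}
    (ht : t ∈ Icc (0 : ℝ) 1) :
    L - 7 < ‖((1 - t) • (c0 + L • e2 - (4 * s) • (g0 • φ.e)) + t • (-(ρ • φ.e))) - c0‖ := by
  obtain ⟨a, ha, rfl⟩ := hc0
  set w := ((1 - t) • (a • φ.e + L • e2 - (4 * s) • (g0 • φ.e)) + t • (-(ρ • φ.e))) - a • φ.e
    with hw
  have i1 : ⟪e2, w⟫ = (1 - t) * L := by
    rw [hw, inner_sub_right, inner_add_right, inner_smul_right, inner_smul_right,
      inner_sub_right, inner_add_right, inner_smul_right, inner_smul_right, inner_smul_right,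
      inner_smul_right, inner_neg_right, inner_smul_right, hee, real_inner_self_eq_norm_sq, he2]
    ring
  have i2 : ⟪φ.e, w⟫ = -(t * a) - (1 - t) * (4 * s) * g0 - t * ρ := by
    have h1 : ⟪φ.e, e2⟫ = 0 := (real_inner_comm _ _).trans hee
    rw [hw, inner_sub_right, inner_add_right, inner_smul_right, inner_smul_right,
      inner_sub_right, inner_add_right, inner_smul_right, inner_smul_right, inner_smul_right,
      inner_smul_right, inner_neg_right, inner_smul_right, h1, real_inner_self_eq_norm_sq, φ.he]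
    ring
  have n1 : |⟪e2, w⟫| ≤ ‖w‖ := by
    have := abs_real_inner_le_norm e2 w
    rwa [he2, one_mul] at this
  have n2 : |⟪φ.e, w⟫| ≤ ‖w‖ := by
    have := abs_real_inner_le_norm φ.e w
    rwa [φ.he, one_mul] at this
  rcases lt_or_ge (t * L) 7 with h | h
  · refine lt_of_lt_of_le ?_ ((le_abs_self _).trans n1)
    rw [i1]
    linarith
  · refine lt_of_lt_of_le ?_ ((neg_le_abs _).trans n2)
    rw [i2]
    have h1 : -1 ≤ g0 := by
      have := neg_abs_le g0
      rw [hg0] at this
      exact this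
    have h2 : 7 * L ≤ t * ρ := by
      calc 7 * L ≤ (t * L) * L := mul_le_mul_of_nonneg_right h (by linarith)
        _ = t * L ^ 2 := by ring
        _ ≤ t * ρ := mul_le_mul_of_nonneg_left hρ ht.1
    have h3 : 0 ≤ t * a := mul_nonneg ht.1 ha
    have h4 : -(1 / 2) ≤ (1 - t) * (4 * s) * g0 := by
      have h5 : 0 ≤ (1 - t) * (4 * s) := mul_nonneg (by linarith [ht.2]) (by linarith)
      have h6 : (1 - t) * (4 * s) ≤ 1 / 2 := by nlinarith [ht.1, ht.2]
      nlinarith
    linarith

end NonePath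

variable {d r : ℕ} {b c : (frk d).BrL (Fin (d + 2)) r} {θ : (frk d).PiL (Fin (d + 2))}
  {j k : Fin r} {ρ : ℝ} {e2 : Vk d} {L s : ℝ}

/-- **The end of the slide.** -/
theorem end_veq (hb : (frk d).OnlyMoves k b) (hc : (frk d).Fixed k c)
    (hck : ∀ i, i ≠ k → (frk d).clsU (Fin (d + 2)) i k (hcl c) = 1) (hjk : Nb j k)
    (he2 : ⟪e2, (frk d).e⟫ = 0)
    (hsg : SG (stB (frk d) b c ρ k) (stV d r ρ) none (some j) (some k) e2 L s)
    (hdat : BData (frk d).h
      (c4 (stB (frk d) b c ρ k) (stV d r ρ) none (some j) (some k) (stA θ j k) e2 L s)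
      (n4 (stB (frk d) b c ρ k) (stN (frk d) b c k) (stV d r ρ) (some j) (some k))) :
    ∃ y : NBr d r, (frk d).SlideOut (hcl θ) j k (hcl (GenLoop.transAt 0 b c)) (hcl y.p) ∧
      ∀ ε R M, Adm ε R M
          (c4 (stB (frk d) b c ρ k) (stV d r ρ) none (some j) (some k) (stA θ j k) e2 L s) →
        VEq (NN (frk d).h ε R M
          (c4 (stB (frk d) b c ρ k) (stV d r ρ) none (some j) (some k) (stA θ j k) e2 L s)
          (n4 (stB (frk d) b c ρ k) (stN (frk d) b c k) (stV d r ρ) (some j) (some k)))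
          (Nfb d r y) := by
  have h := endHyp_c4 (θ := θ) hjk hsg hdat
  have hout := h.slideOut (by omega) hjk hb hc hck
  have hL : ∀ i x, ‖x‖ ≤ 1 → ‖stB (frk d) b c ρ k (some i) x - (frk d).base r k‖ + 8 ≤ L :=
    fun i x hx => hsg.hL (some i) (Option.some_ne_none i) x hx
  have hL8 : 8 ≤ L := by
    have := hL k 0 (by simp)
    linarith [norm_nonneg (stB (frk d) b c ρ k (some k) 0 - (frk d).base r k)]
  have hs := hsg.hr
  have hs8 := hsg.hr8
  set B := c4 (stB (frk d) b c ρ k) (stV d r ρ) none (some j) (some k) (stA θ j k) e2 L s with hB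
  set N := n4 (stB (frk d) b c ρ k) (stN (frk d) b c k) (stV d r ρ) (some j) (some k) with hN
  have hf := h.sph hjk
  -- the sheets are near `base k`
  have hoth : ∀ i, i ≠ k → ∀ x ∈ Qb (Fin (d + 2)),
      ‖(fD B N x).1 i - (frk d).base r k‖ ≤ L - 8 := by
    intro i hi x hx
    have h1 := hL i (ei x) (norm_ei_le hx)
    have h2 : stB (frk d) b c ρ k (some i) (ei x) = (fD B N x).1 i := by
      have h3 := (h.oth i hi (ei x) (norm_ei_le hx)).1
      refine Eq.trans ?_ h3.symm
      exact if_neg hi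
    rw [h2] at h1
    linarith
  have hbd : ∀ i, ∀ x ∈ Qb (Fin (d + 2)), ‖(fD B N x).1 i - (frk d).base r k‖ ≤ L - 7 := by
    intro i x hx
    by_cases hi : i = k
    · subst hi
      rcases le_total (x.1 0) (-1 / 2) with h0 | h0
      · have h1 := hL i (ei x) (norm_ei_le hx)
        have h2 : stB (frk d) b c ρ i (some i) (ei x) = (fD B N x).1 i := by
          have h3 := (h.kL (ei x) (norm_ei_le hx) (by rwa [ei_zero])).1
          refine Eq.trans ?_ h3.symm
          exact if_pos rfl
        rw [h2] at h1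
        linarith
      rcases le_total (x.1 0) (1 / 4) with h1 | h1
      · obtain ⟨τ, hτ, h2⟩ := h.kM' hjk hx h0 h1
        rw [h2]
        have h3 : mid (frk d) r j i τ - (frk d).base r i =
            (-(1 - τ)) • (sg j i • (frk d).e) := by
          rw [← base_sub_nb (frk d) hjk, mid]
          module
        rw [h3, norm_smul, norm_smul, (frk d).he, Real.norm_eq_abs, Real.norm_eq_abs, abs_neg,
          H839.abs_sg, mul_one, mul_one, abs_of_nonneg (by linarith [hτ.2])]
        linarith [hτ.1]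
      · have h2 := (h.kR' hx h1).1
        rw [h2]
        have h3 := hoth j hjk.ne x hx
        have h4 : ‖(2 * s) • (sg j i • am (frk d) (lv θ (atz 0 (4 * x.1 0 - 1) (ci x))))‖ =
            2 * s := by
          rw [norm_smul, norm_smul, H839.norm_am, Real.norm_eq_abs, Real.norm_eq_abs,
            H839.abs_sg, mul_one, mul_one, abs_of_nonneg (by linarith)]
        have h5 : (fD B N x).1 j +
            (2 * s) • (sg j i • am (frk d) (lv θ (atz 0 (4 * x.1 0 - 1) (ci x)))) -
            (frk d).base r i = ((fD B N x).1 j - (frk d).base r i) +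
            (2 * s) • (sg j i • am (frk d) (lv θ (atz 0 (4 * x.1 0 - 1) (ci x)))) := by abel
        rw [h5]
        refine (norm_add_le _ _).trans ?_
        rw [h4]
        linarith
    · have := hoth i hi x hx
      linarith
  have hnorm : ∀ i, ∀ x ∈ Qb (Fin (d + 2)), ‖(fD B N x).1 i‖ < L + ‖(frk d).base r k‖ := by
    intro i x hx
    have h1 := hbd i x hx
    have h2 : ‖(fD B N x).1 i‖ ≤ ‖(fD B N x).1 i - (frk d).base r k‖ + ‖(frk d).base r k‖ := by
      have := norm_add_le ((fD B N x).1 i - (frk d).base r k) ((frk d).base r k)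
      rwa [sub_add_cancel] at this
    linarith
  -- the braid
  obtain ⟨y, hyp, hyρ⟩ := exists_NBr blockAdm (brK (frk d) (fD B N) hf)
    (max (L ^ 2) (max (L + ‖(frk d).base r k‖) (r + 1)))
  have hρ1 : L ^ 2 ≤ y.ρ := (le_max_left _ _).trans hyρ
  have hρ2 : L + ‖(frk d).base r k‖ ≤ y.ρ :=
    ((le_max_left _ _).trans (le_max_right _ _)).trans hyρ
  have hρ3 : (r : ℝ) < y.ρ := by
    have : (r : ℝ) + 1 ≤ y.ρ := ((le_max_right _ _).trans (le_max_right _ _)).trans hyρ
    linarith
  refine ⟨y, by rw [hyp]; exact hout, fun ε R M hA => ?_⟩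
  -- the data as `shW`
  set w₀ : Vk d := (frk d).base r k + L • e2 - (4 * s) • ((frk d).base r k - (frk d).base r j)
    with hw₀
  have eB : ∀ a, ∀ x : Pk d, ‖x‖ ≤ 1 → B a x = shW (fD B N) w₀ a x := by
    intro a x hx
    cases a with
    | none => exact (h.none x hx).1
    | some i =>
      change B (some i) x = B (some i) (ei (em (cubeM x)))
      rw [ei_em_cubeM hx]
  have eN : ∀ a, ∀ x : Pk d, ‖x‖ ≤ 1 → N a x = nuW (frk d) (fD B N) a x := by
    intro a x hx
    cases a with
    | none => exact (h.none x hx).2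
    | some i =>
      change N (some i) x = N (some i) (ei (em (cubeM x)))
      rw [ei_em_cubeM hx]
  rw [NN_congr eB eN]
  have hA' : Adm ε R M (shW (fD B N) w₀) := Adm_congr eB hA
  -- moving the constant sheet
  have hFc : ContinuousOn (fun z : ℝ × ((Fin (d + 2) → ℝ) × ℝ) => fD B N z.2)
      (Icc 0 1 ×ˢ Qb (Fin (d + 2))) := h.cont.comp continuousOn_snd fun z hz => hz.2
  have hh2 : ⟪(frk d).h, e2⟫ = 0 := (real_inner_comm _ _).trans hsg.e2h
  have hwh : ∀ t ∈ Icc (0 : ℝ) 1, ⟪(frk d).h, (1 - t) • w₀ + t • (-(y.ρ • (frk d).e))⟫ = 0 := by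
    intro t _
    rw [inner_add_right, inner_smul_right, inner_smul_right, inner_neg_right, inner_smul_right,
      hw₀, inner_sub_right, inner_add_right, inner_smul_right, inner_smul_right, inner_sub_right,
      base_h, base_h, hh2, (frk d).heh]
    ring
  have hfar : ∀ t ∈ Icc (0 : ℝ) 1, L - 7 <
      ‖((1 - t) • w₀ + t • (-(y.ρ • (frk d).e))) - (frk d).base r k‖ := by
    intro t ht
    have := none_path' (frk d) (c0 := (frk d).base r k) (e2 := e2) (L := L) (s := s)
      (g0 := sg j k) hsg.e2n he2 ⟨(k : ℝ) + 1, by positivity, rfl⟩ hL8 hs hs8 (H839.abs_sg j k)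
      hρ1 ht
    rwa [← base_sub_nb (frk d) hjk] at this
  have F1 := bFam_shW (frk d) (s := Icc (0 : ℝ) 1) (F := fun _ => fD B N)
    (w := fun t => (1 - t) • w₀ + t • (-(y.ρ • (frk d).e))) hFc (fun _ _ x hx => h.pc hx)
    (fun _ _ x hx => h.qc hx) (by fun_prop) hwh (fun t ht x hx i heq => by
      have h1 := hfar t ht
      rw [heq] at h1
      exact absurd (hbd i x hx) (not_le.mpr h1))
  obtain ⟨ε₁, R₁, M₁, hA1⟩ := blockAdm d _ _ _ (F1.at (right_mem_Icc.mpr zero_le_one))
  have e10 : (1 - (1 : ℝ)) • w₀ + (1 : ℝ) • (-(y.ρ • (frk d).e)) = -(y.ρ • (frk d).e) := by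
    rw [sub_self, zero_smul, one_smul, zero_add]
  have e00 : (1 - (0 : ℝ)) • w₀ + (0 : ℝ) • (-(y.ρ • (frk d).e)) = w₀ := by
    rw [sub_zero, one_smul, zero_smul, add_zero]
  have V1 := blockHom d _ _ _ ε R M ε₁ R₁ M₁ F1 (by
    beta_reduce
    rw [e00]
    exact hA') hA1
  beta_reduce at V1 hA1
  rw [e00, e10] at V1
  rw [e10] at hA1
  refine V1.trans ?_
  -- normalisation of the faces
  have F2 := bFam_cap (frk d) hf (ρ := y.ρ) (fun x hx i => (hnorm i x hx).trans_le hρ2) hρ3
  obtain ⟨s1, s2⟩ := shW_brK (frk d) hf y.ρ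
  have c0 : shW (cap (bC (frk d) r) 0 (fD B N)) (-(y.ρ • (frk d).e)) =
      shW (fD B N) (-(y.ρ • (frk d).e)) := by
    funext a x
    cases a with
    | none => rfl
    | some i => exact congrFun (congrArg Prod.fst (cap_zero (em_mem (cubeM x)))) i
  have c0' : nuW (frk d) (cap (bC (frk d) r) 0 (fD B N)) = nuW (frk d) (fD B N) := by
    funext a x
    cases a with
    | none => rfl
    | some i => exact congrFun (congrArg Prod.snd (cap_zero (em_mem (cubeM x)))) i
  have hy := y.adm
  have V2 := blockHom d _ _ _ ε₁ R₁ M₁ y.ε y.R y.M F2 (by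
    rw [c0]
    exact hA1) (by
    rw [s1, ← hyp]
    exact hy)
  beta_reduce at V2
  rw [c0, c0', s1, s2, ← hyp] at V2
  exact V2

end Vale.Agent.P268.T.R996
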