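import Vale.Agent.P268.T.R996.EndDef

/-!
# The classes of the end data of the slide
-/

set_option linter.unusedSectionVars false

namespace Vale.Agent.P268.T.R996

open Set Topology Metric
open scoped unitInterval Topology.Homotopy RealInnerProductSpace
open Vale.Agent.P268.H288 Vale.Agent.P268.T.A109
open Vale.Agent.P268.T.H839 (sg sg_ne sg_pos am Nb)

variable {V : Type*} [NormedAddCommGroup V] [InnerProductSpace ℝ V] {φ : Fr V} {m r : ℕ}
  [NeZero m]

section Rf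

theorem rf_smul {c : ℝ} (hc : c ≠ 0) (v x : V) : rf (c • v) x = rf v x := by
  unfold rf
  by_cases hv : ⟪v, v⟫ = 0
  · have : v = 0 := inner_self_eq_zero.mp hv
    rw [this, smul_zero]
  rw [inner_smul_right, inner_smul_right, inner_smul_left, smul_smul]
  congr 2
  simp only [conj_trivial]
  field_simp

end Rf

section Windows

/-- Points of a window. -/
theorem atz_win' {α β : ℝ} (h : α < β) (x : (Fin m → ℝ) × ℝ) {u : ℝ}
    (hu : u = ((win 0 α β x).1 0 - α) / (β - α)) :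
    atz 0 u (ci (win 0 α β x)) = ci x := by
  rw [hu]
  exact atz_win 0 h x

variable {b c : φ.BrL (Fin m) r} {θ : φ.PiL (Fin m)} {j k : Fin r} {s : ℝ} {w₀ : V}
  {B N : Option (Fin r) → (Fin (m + 1) → ℝ) → V}

theorem EndHyp.oth_C (h : EndHyp φ b c θ j k s w₀ B N) {i : Fin r} (hi : i ≠ k)
    {x : (Fin m → ℝ) × ℝ} (hx : x ∈ Qb (Fin m)) :
    (fD B N (win 0 (1 / 4) (1 / 2) x)).1 i = (fBr φ c (ci x)).1 i ∧
      (fD B N (win 0 (1 / 4) (1 / 2) x)).2 i = (fBr φ c (ci x)).2 i := by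
  have h1 := h.oth' hi (win_mem (i := 0) (α := 1 / 4) (β := 1 / 2) (by norm_num) (by norm_num)
    (by norm_num) hx)
  rwa [atz_win' (by norm_num) x (by ring)] at h1

theorem EndHyp.k_C (h : EndHyp φ b c θ j k s w₀ B N) (hjk : Nb j k)
    {x : (Fin m → ℝ) × ℝ} (hx : x ∈ Qb (Fin m)) :
    (fD B N (win 0 (1 / 4) (1 / 2) x)).1 k = (fBr φ c (ci x)).1 j +
        (2 * s) • (sg j k • am φ (lv θ (ci x))) ∧
      (fD B N (win 0 (1 / 4) (1 / 2) x)).2 k = (fBr φ c (ci x)).2 j := by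
  have hw := win_mem (i := (0 : Fin m)) (α := 1 / 4) (β := 1 / 2) (by norm_num) (by norm_num)
    (by norm_num) hx
  have h0 := (win_coord_mem (i := (0 : Fin m)) (α := 1 / 4) (β := 1 / 2) (by norm_num) hx).1
  have h1 := h.kR' hw h0
  rw [atz_win' (by norm_num) x (by ring), (h.oth_C hjk.ne hx).1, (h.oth_C hjk.ne hx).2] at h1
  exact h1

theorem EndHyp.k_A (h : EndHyp φ b c θ j k s w₀ B N)
    {x : (Fin m → ℝ) × ℝ} (hx : x ∈ Qb (Fin m)) :
    (fD B N (win 0 (-3 / 4) (-1 / 2) x)).1 k = (fBr φ b (ci x)).1 k ∧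
      (fD B N (win 0 (-3 / 4) (-1 / 2) x)).2 k = (fBr φ b (ci x)).2 k := by
  have hw := win_mem (i := (0 : Fin m)) (α := -3 / 4) (β := -1 / 2) (by norm_num) (by norm_num)
    (by norm_num) hx
  have h0 := (win_coord_mem (i := (0 : Fin m)) (α := -3 / 4) (β := -1 / 2) (by norm_num) hx).2
  have h1 := h.kL' hw h0
  rwa [atz_win' (by norm_num) x (by ring)] at h1

theorem EndHyp.oth_A (h : EndHyp φ b c θ j k s w₀ B N) {i : Fin r} (hi : i ≠ k)
    {x : (Fin m → ℝ) × ℝ} (hx : x ∈ Qb (Fin m)) :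
    (fD B N (win 0 (-3 / 4) (-1 / 2) x)).1 i = φ.base r i := by
  have hw := win_mem (i := (0 : Fin m)) (α := -3 / 4) (β := -1 / 2) (by norm_num) (by norm_num)
    (by norm_num) hx
  have h0 := (win_coord_mem (i := (0 : Fin m)) (α := -3 / 4) (β := -1 / 2) (by norm_num) hx).2
  rw [(h.oth' hi hw).1, fBr_face φ c (Or.inl (atz_of_nonpos _ (by linarith) _))]
  rfl

theorem EndHyp.n_G (h : EndHyp φ b c θ j k s w₀ B N)
    {x : (Fin m → ℝ) × ℝ} (hx : x ∈ Qb (Fin m)) :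
    (fD B N (win 0 (-3 / 8) (-1 / 4) x)).2 k =
      rf ((fBr φ b (ci x)).1 k - φ.base r j) φ.h := by
  have hw := win_mem (i := (0 : Fin m)) (α := -3 / 8) (β := -1 / 4) (by norm_num) (by norm_num)
    (by norm_num) hx
  have h0 := win_coord_mem (i := (0 : Fin m)) (α := -3 / 8) (β := -1 / 4) (by norm_num) hx
  have h1 := h.nG (ei (win 0 (-3 / 8) (-1 / 4) x)) (norm_ei_le hw) (by rw [ei_zero]; exact h0.1)
    (by rw [ei_zero]; exact h0.2)
  rw [ei_zero, cubeM_ei, atz_win' (by norm_num) x (by ring)] at h1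
  exact h1

end Windows

section Classes

variable {b c : φ.BrL (Fin m) r} {θ : φ.PiL (Fin m)} {j k : Fin r} {s : ℝ} {w₀ : V}
  {B N : Option (Fin r) → (Fin (m + 1) → ℝ) → V}

/-- Pairs without `k`. -/
theorem EndHyp.cls_other (h : EndHyp φ b c θ j k s w₀ B N) (hjk : Nb j k) {i l : Fin r}
    (hi : i ≠ k) (hl : l ≠ k) :
    φ.clsU (Fin m) i l (hcl (brK φ (fD B N) (h.sph hjk))) = φ.clsU (Fin m) i l (hcl c) := by
  by_cases hil : i = l
  · subst hil
    rw [H839.clsU_self, H839.clsU_self]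
  rw [clsU_brK φ (h.sph hjk) hil, clsU_loop φ c hil,
    clsP_one_win φ.e0_mem (fc_K0 φ) 0 (sph_dU φ (h.sph hjk) hil) (α := 1 / 4) (β := 1 / 2)
      (by norm_num) (by norm_num) (by norm_num) ?_]
  · refine clsP_congr _ fun x hx => ?_
    unfold dU
    rw [(h.oth_C hi hx).1, (h.oth_C hl hx).1]
  · intro x hx h0
    have hface : (atz 0 (4 * x.1 0 - 1) (ci x)).1 ∈ Cube.boundary (Fin m) := by
      rcases h0 with h0 | h0
      · exact atz_of_nonpos _ (by linarith) _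
      · exact atz_of_one_le _ (by linarith) _
    have h3 := dU_mem_K0 φ hil (bC_mem φ (r := r))
    unfold dU at h3 ⊢
    rw [(h.oth' hi hx).1, (h.oth' hl hx).1, fBr_face φ c (Or.inl hface)]
    exact h3

/-- The two active windows of a pair with `k`. -/
theorem EndHyp.cls_k_two (h : EndHyp φ b c θ j k s w₀ B N) (hjk : Nb j k)
    (hb : φ.OnlyMoves k b) {i : Fin r} (hi : i ≠ k) :
    φ.clsU (Fin m) i k (hcl (brK φ (fD B N) (h.sph hjk))) =
      clsP φ.e0_mem (fun x => dU i k (fD B N (win 0 (1 / 4) (1 / 2) x))) *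
        φ.clsU (Fin m) i k (hcl b) := by
  rw [clsU_brK φ (h.sph hjk) hi, clsU_loop φ b hi,
    clsP_two_win φ.e0_mem (fc_K0 φ) 0 (sph_dU φ (h.sph hjk) hi) (α := -3 / 4) (β := -1 / 2)
      (γ := 1 / 4) (δ := 1 / 2)
      (by norm_num) (by norm_num) (by norm_num) (by norm_num) (by norm_num)
      (fun x hx h0 => (h.out hjk hx h0).dU_mem φ hjk hi)]
  congr 1
  refine clsP_congr _ fun x hx => ?_
  unfold dU
  rw [(h.k_A hx).1, h.oth_A hi hx]
  have h1 : (fBr φ b (ci x)).1 i = φ.base r i := (hb _ _ i hi).1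
  rw [h1]

/-- The window map of a pair `{i, k}`, with a parameter. -/
theorem EndHyp.sph_par (h : EndHyp φ b c θ j k s w₀ B N) (hjk : Nb j k) {i : Fin r}
    (hij : i ≠ j) (hik : i ≠ k) {t : ℝ} (ht : t ∈ Icc (0 : ℝ) (2 * s)) :
    Sph (fun v : V => v ≠ 0) (qq φ.A0) (K0 φ)
      (fun x : (Fin m → ℝ) × ℝ => sg i j • ((fBr φ c (ci x)).1 j + t • (sg j k • am φ (lv θ (ci x))) -
        (fBr φ c (ci x)).1 i)) := by
  have hne : ∀ x ∈ Qb (Fin m), sg i j • ((fBr φ c (ci x)).1 j +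
      t • (sg j k • am φ (lv θ (ci x))) - (fBr φ c (ci x)).1 i) ≠ 0 := by
    intro x hx
    refine smul_ne_zero (sg_ne i j) (sub_ne_zero.mpr ?_)
    have hw := win_mem (i := (0 : Fin m)) (α := 1 / 4) (β := 1 / 2) (by norm_num) (by norm_num)
      (by norm_num) hx
    have h0 := (win_coord_mem (i := (0 : Fin m)) (α := 1 / 4) (β := 1 / 2) (by norm_num) hx).1
    have h1 := h.far i hij hik (ei (win 0 (1 / 4) (1 / 2) x)) (norm_ei_le hw)
      (by rw [ei_zero]; exact h0) t ht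
    rw [ei_zero, cubeM_ei, atz_win' (by norm_num) x (by ring)] at h1
    have h2 : B (some i) (ei (win 0 (1 / 4) (1 / 2) x)) = (fBr φ c (ci x)).1 i :=
      (h.oth_C hik hx).1
    have h3 : B (some j) (ei (win 0 (1 / 4) (1 / 2) x)) = (fBr φ c (ci x)).1 j :=
      (h.oth_C hjk.ne hx).1
    rw [h2, h3] at h1
    exact h1.symm
  have hcj : ∀ i, Continuous fun x : (Fin m → ℝ) × ℝ => (fBr φ c (ci x)).1 i := fun i =>
    (continuous_apply i).comp (continuous_fst.comp ((continuous_fBr φ c).comp continuous_ci))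
  have hct : Continuous fun x : (Fin m → ℝ) × ℝ => am φ (lv θ (ci x)) :=
    (am φ).continuous.comp ((continuous_lv θ).comp continuous_ci)
  have hH : ∀ x ∈ Rb (Fin m), ⟪φ.h, sg i j • ((fBr φ c (ci x)).1 j +
      t • (sg j k • am φ (lv θ (ci x))) - (fBr φ c (ci x)).1 i)⟫ = 0 := by
    intro x hx
    have h1 := (fBr_rim φ c (ci_rim hx)).2.1
    have h2 : ⟪φ.h, am φ (lv θ (ci x))⟫ = 0 := H839.am_mem φ (lv_rim θ (ci_rim hx))
    rw [inner_smul_right, inner_sub_right, inner_add_right, inner_smul_right, inner_smul_right,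
      h1, h1, h2]
    ring
  refine ⟨?_, hne, fun x hx => ⟨hne x hx.1, hH x hx⟩, fun x hx => ?_⟩
  · exact ((((hcj j).add ((hct.const_smul _).const_smul _)).sub (hcj i)).const_smul _).continuousOn
  · have h1 := fBr_face φ c (ci_face hx)
    have h2 : lv θ (ci x) = φ.e0 := lv_face θ (ci_face hx)
    rw [h1, h2, H839.am_e0, ← H839.sg_nb hjk hij hik]
    have hs := h.hs'
    have hb : ((bC φ r).1 j : V) + t • (sg j k • φ.e) = mid φ r j k t := by
      rw [← base_sub_nb φ hjk, mid]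
      change φ.base r j + _ = _
      module
    rw [hb]
    rcases ht.1.eq_or_lt with h3 | h3
    · have h4 := dU_mem_K0 φ hij (bC_mem φ (r := r))
      unfold dU at h4
      rw [← h3, mid, sub_zero, one_smul, zero_smul, add_zero, H839.sg_nb hjk hij hik]
      exact h4
    · exact mid_K0 φ hjk h3 (ht.2.trans (by linarith)) hik

/-- The pairs `{i, k}`, `i ≠ j`. -/
theorem EndHyp.cls_k (h : EndHyp φ b c θ j k s w₀ B N) (hjk : Nb j k)
    (hb : φ.OnlyMoves k b) {i : Fin r} (hij : i ≠ j) (hik : i ≠ k) :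
    φ.clsU (Fin m) i k (hcl (brK φ (fD B N) (h.sph hjk))) =
      φ.clsU (Fin m) i j (hcl c) * φ.clsU (Fin m) i k (hcl b) := by
  rw [h.cls_k_two hjk hb hik, clsU_loop φ c hij]
  congr 1
  have hs := h.hs
  have hh := clsP_homotopic φ.e0_mem (fc_K0 φ)
    (F := fun (t : ℝ) (x : (Fin m → ℝ) × ℝ) => sg i j • ((fBr φ c (ci x)).1 j +
      ((1 - t) * (2 * s)) • (sg j k • am φ (lv θ (ci x))) - (fBr φ c (ci x)).1 i)) ?_ ?_
  · refine Eq.trans (clsP_congr _ fun x hx => ?_) (hh.trans (clsP_congr _ fun x hx => ?_))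
    · unfold dU
      rw [(h.k_C hjk hx).1, (h.oth_C hik hx).1, H839.sg_nb hjk hij hik, sub_zero, one_mul]
    · unfold dU
      rw [sub_self, zero_mul, zero_smul, add_zero]
  · have hcj : ∀ i, Continuous fun z : ℝ × ((Fin m → ℝ) × ℝ) => (fBr φ c (ci z.2)).1 i := fun i =>
      (continuous_apply i).comp (continuous_fst.comp ((continuous_fBr φ c).comp
        (continuous_ci.comp continuous_snd)))
    have hct : Continuous fun z : ℝ × ((Fin m → ℝ) × ℝ) => am φ (lv θ (ci z.2)) :=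
      (am φ).continuous.comp ((continuous_lv θ).comp (continuous_ci.comp continuous_snd))
    exact ((((hcj j).add ((continuous_const.sub continuous_fst).mul continuous_const |>.smul
      (hct.const_smul _))).sub (hcj i)).const_smul _).continuousOn
  · intro t ht
    exact h.sph_par hjk hij hik ⟨by nlinarith [ht.1, ht.2], by nlinarith [ht.1, ht.2]⟩

/-- The pair `{j, k}`. -/
theorem EndHyp.cls_jk (h : EndHyp φ b c θ j k s w₀ B N) (hjk : Nb j k)
    (hb : φ.OnlyMoves k b) :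
    φ.clsU (Fin m) j k (hcl (brK φ (fD B N) (h.sph hjk))) =
      φ.deltaH (Fin m) (hcl θ) * φ.clsU (Fin m) j k (hcl b) := by
  rw [h.cls_k_two hjk hb hjk.ne]
  congr 1
  have hs := h.hs
  -- the map `am θ`
  have hct : Continuous fun x : (Fin m → ℝ) × ℝ => am φ (lv θ (ci x)) :=
    (am φ).continuous.comp ((continuous_lv θ).comp continuous_ci)
  have hS : Sph (fun v : V => v ≠ 0) (qq φ.A0) (K0 φ)
      (fun x : (Fin m → ℝ) × ℝ => am φ (lv θ (ci x))) :=
    ⟨hct.continuousOn, fun x _ => H839.am_ne φ _,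
      fun x hx => ⟨H839.am_ne φ _, H839.am_mem φ (lv_rim θ (ci_rim hx))⟩, fun x hx => by
        rw [show lv θ (ci x) = φ.e0 from lv_face θ (ci_face hx), H839.am_e0]
        exact (fc_K0 φ).base⟩
  have h1 : φ.deltaH (Fin m) (hcl θ) =
      hcl (rlMap φ.deltaMap φ.deltaMap_mem φ.deltaMap_e φ.e0_mem φ.e0_mem θ) := rfl
  have hq : ContinuousOn (fun x : (Fin m → ℝ) × ℝ =>
      ⟪((lv θ (ci x) : V0 V) : V), ((lv θ (ci x) : V0 V) : V)⟫) (Qb (Fin m)) := by
    have h2 : Continuous fun x : (Fin m → ℝ) × ℝ => ((lv θ (ci x) : V0 V) : V) :=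
      continuous_subtype_val.comp ((continuous_lv θ).comp continuous_ci)
    exact (h2.inner h2).continuousOn
  rw [h1, ← clsP_loop]
  refine Eq.trans ?_ (Eq.trans (clsP_smul φ hS (ρ := fun x =>
    ⟪((lv θ (ci x) : V0 V) : V), ((lv θ (ci x) : V0 V) : V)⟫) hq
    fun x _ => H839.inner_self_pos _).symm ?_)
  · refine Eq.trans ?_ (clsP_smul φ hS (ρ := fun _ => 2 * s) continuousOn_const
      fun _ _ => by linarith)
    refine clsP_congr _ fun x hx => ?_
    unfold dU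
    rw [(h.k_C hjk hx).1, (h.oth_C hjk.ne hx).1, add_sub_cancel_left, smul_comm (sg j k),
      smul_smul (sg j k), H839.sg_mul_self, one_smul]
  · refine clsP_congr _ fun x _ => ?_
    exact (H839.deltaMap_eq φ (lv θ (ci x))).symm

/-- Twists of the other strands. -/
theorem EndHyp.tw_other (h : EndHyp φ b c θ j k s w₀ B N) (hjk : Nb j k) {i : Fin r}
    (hi : i ≠ k) :
    φ.twH (Fin m) i (hcl (brK φ (fD B N) (h.sph hjk))) = φ.twH (Fin m) i (hcl c) := by
  rw [twH_brK φ (h.sph hjk), twH_loop φ c,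
    clsP_one_win φ.h1_mem (fc_h φ) 0 (sph_nrmL φ (h.sph hjk) i fun w hw => hw.2.2 i)
      (α := 1 / 4) (β := 1 / 2) (by norm_num) (by norm_num) (by norm_num) ?_]
  · exact clsP_congr _ fun x hx => (h.oth_C hi hx).2
  · intro x hx h0
    have hface : (atz 0 (4 * x.1 0 - 1) (ci x)).1 ∈ Cube.boundary (Fin m) := by
      rcases h0 with h0 | h0
      · exact atz_of_nonpos _ (by linarith) _
      · exact atz_of_one_le _ (by linarith) _
    change (fD B N x).2 i = φ.h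
    rw [(h.oth' hi hx).2, fBr_face φ c (Or.inl hface)]
    rfl

/-- The twist `ψ` of the pair `{j, k}`. -/
theorem psi_pair (hjk : Nb j k) (hb : φ.OnlyMoves k b) :
    φ.psiH (Fin m) (φ.clsU (Fin m) j k (hcl b)) =
      clsP φ.h1_mem (fun x : (Fin m → ℝ) × ℝ => rf ((fBr φ b (ci x)).1 k - φ.base r j) φ.h) := by
  have hj : ∀ q, (fBr φ b q).1 j = φ.base r j := fun q => (hb _ _ j hjk.ne).1
  rcases lt_or_gt_of_ne hjk.ne with h | h
  · have h1 : φ.psiH (Fin m) (φ.clsH (Fin m) h (hcl b)) =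
        hcl (rlMap φ.psiMap φ.psiMap_mem φ.psiMap_e φ.e0_mem φ.h1_mem
          (rlMap (Fr.dif h) (φ.dif_mem h) (φ.dif_bx h) (φ.bx_mem r) φ.e0_mem b)) := rfl
    rw [φ.clsU_of_lt h, h1, ← clsP_loop]
    refine clsP_congr _ fun x _ => ?_
    change rf (((k : ℝ) - j)⁻¹ • ((fBr φ b (ci x)).1 k - (fBr φ b (ci x)).1 j)) φ.h = _
    rw [rf_smul (inv_ne_zero (Fr.cast_sub_ne h)), hj]
  · have h1 : φ.psiH (Fin m) (φ.clsH (Fin m) h (hcl b)) =
        hcl (rlMap φ.psiMap φ.psiMap_mem φ.psiMap_e φ.e0_mem φ.h1_mem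
          (rlMap (Fr.dif h) (φ.dif_mem h) (φ.dif_bx h) (φ.bx_mem r) φ.e0_mem b)) := rfl
    rw [φ.clsU_comm, φ.clsU_of_lt h, h1, ← clsP_loop]
    refine clsP_congr _ fun x _ => ?_
    change rf (((j : ℝ) - k)⁻¹ • ((fBr φ b (ci x)).1 j - (fBr φ b (ci x)).1 k)) φ.h = _
    have e1 : ((j : ℝ) - k)⁻¹ • ((fBr φ b (ci x)).1 j - (fBr φ b (ci x)).1 k) =
        (-((j : ℝ) - k)⁻¹) • ((fBr φ b (ci x)).1 k - (fBr φ b (ci x)).1 j) := by module
    rw [e1, rf_smul (neg_ne_zero.mpr (inv_ne_zero (Fr.cast_sub_ne h))), hj]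

/-- The twist of `k`. -/
theorem EndHyp.tw_k (h : EndHyp φ b c θ j k s w₀ B N) (hjk : Nb j k)
    (hb : φ.OnlyMoves k b) :
    φ.twH (Fin m) k (hcl (brK φ (fD B N) (h.sph hjk))) =
      φ.twH (Fin m) j (hcl c) * (φ.psiH (Fin m) (φ.clsU (Fin m) j k (hcl b)) *
        φ.twH (Fin m) k (hcl b)) := by
  rw [twH_brK φ (h.sph hjk), twH_loop φ c, twH_loop φ b, psi_pair hjk hb,
    clsP_three_win φ.h1_mem (fc_h φ) 0 (sph_nrmL φ (h.sph hjk) k fun w hw => hw.2.2 k)
      (α := -3 / 4) (β := -1 / 2) (γ := -3 / 8) (δ := -1 / 4) (ε := 1 / 4) (ζ := 1 / 2)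
      (by norm_num) (by norm_num) (by norm_num) (by norm_num) (by norm_num) (by norm_num)
      (by norm_num) ?_]
  · congr 1
    · exact clsP_congr _ fun x hx => (h.k_C hjk hx).2
    congr 1
    · exact clsP_congr _ fun x hx => h.n_G hx
    · exact clsP_congr _ fun x hx => (h.k_A hx).2
  · intro x hx h0
    change (fD B N x).2 k = φ.h
    rcases h0 with h0 | ⟨h0, h1⟩ | ⟨h0, h1⟩ | h0
    · rw [(h.kL' hx (by linarith)).2, fBr_face φ b (Or.inl (atz_of_nonpos _ (by linarith) _))]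
      rfl
    · exact h.nM (ei x) (norm_ei_le hx) (Or.inl ⟨by rwa [ei_zero], by rwa [ei_zero]⟩)
    · exact h.nM (ei x) (norm_ei_le hx) (Or.inr ⟨by rwa [ei_zero], by rwa [ei_zero]⟩)
    · rw [(h.kR' hx (by linarith)).2, (h.oth' hjk.ne hx).2,
        fBr_face φ c (Or.inl (atz_of_one_le _ (by linarith) _))]
      rfl

end Classes

section Slide

variable {b c : φ.BrL (Fin m) r} {θ : φ.PiL (Fin m)} {j k : Fin r} {s : ℝ} {w₀ : V}
  {B N : Option (Fin r) → (Fin (m + 1) → ℝ) → V}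

/-- **The classes of the end data of the slide.** -/
theorem EndHyp.slideOut (h : EndHyp φ b c θ j k s w₀ B N) (hm : 2 ≤ m) (hjk : Nb j k)
    (hb : φ.OnlyMoves k b) (hc : φ.Fixed k c)
    (hck : ∀ i, i ≠ k → φ.clsU (Fin m) i k (hcl c) = 1) :
    φ.SlideOut (hcl θ) j k (hcl (GenLoop.transAt 0 b c)) (hcl (brK φ (fD B N) (h.sph hjk))) := by
  have : Nontrivial (Fin m) := Fin.nontrivial_iff_two_le.mpr hm
  have comm : ∀ x y : φ.PiG (Fin m), x * y = y * x := rg_comm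
  have comm' : ∀ x y : φ.PhiG (Fin m), x * y = y * x := rg_comm
  have key : ∀ x y z : φ.PhiG (Fin m), x * (y * z) = z * x * y := by
    intro x y z
    rw [comm' y z, ← mul_assoc, comm' x z]
  have hbf : ∀ i, i ≠ k → φ.Fixed i b := fun i hi => Fr.OnlyMoves.fixed φ hb hi
  rw [← hcl_mul 0]
  refine ⟨fun i l hi hl => ?_, fun i hik hij => ?_, ?_, fun i hi => ?_, ?_⟩
  · rw [map_mul, h.cls_other hjk hi hl, φ.clsU_of_fixed (hbf i hi) (hbf l hl), mul_one]
  · rw [map_mul, map_mul, h.cls_k hjk hb hij hik, hck i hik,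
      φ.clsU_of_fixed (hbf i hik) (hbf j hjk.ne), one_mul, mul_one, comm]
  · rw [map_mul, h.cls_jk hjk hb, hck j hjk.ne, one_mul, comm]
  · rw [map_mul, h.tw_other hjk hi, φ.twH_of_fixed (hbf i hi), mul_one]
  · rw [map_mul, map_mul, map_mul, h.tw_k hjk hb, φ.twH_of_fixed hc, hck j hjk.ne,
      φ.twH_of_fixed (hbf j hjk.ne), one_mul, mul_one, one_mul]
    exact key _ _ _

end Slide

end Vale.Agent.P268.T.R996
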