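import Vale.Agent.P268.H288.PP
import Vale.Agent.P268.H288.Collapse

/-!
# Relative spheroids whose faces lie in a convex set

Coordinates of `H288/Collapse`: `Qb M = {(y,t) | ‖y‖ ≤ 1, 0 ≤ t ≤ 1}`, rim `Rb M` (`t = 0`), the other
faces `Jb M`.  `p` is (the predicate of) the space, `q` of the subspace, `K` a convex set contained
in the subspace, `e` a point of `K`.

`Sph p q K f`: `f` maps `(Qb, Rb, Jb)` to `(p, q, K)`.  `cap e s f` is a homotopy of such maps from
`f` to a map which is constant `e` on `Jb`; `clsP` is the class of the latter in the homotopy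
group `HomotopyGroup M (PP {v // p v} {v | q v} e)`.
-/

set_option linter.unusedSectionVars false

namespace Vale.Agent.P268.T.R996

open Set Topology
open scoped unitInterval Topology.Homotopy
open Vale.Agent.P268.H288

section Basic

variable {M : Type*} [Fintype M] {V : Type*} [NormedAddCommGroup V] [NormedSpace ℝ V]
  {p q : V → Prop} {K : Set V} {e : V}

/-- Relative spheroids with faces in `K`. -/
structure Sph (p q : V → Prop) (K : Set V) (f : (M → ℝ) × ℝ → V) : Prop where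
  cont : ContinuousOn f (Qb M)
  mem : ∀ x ∈ Qb M, p (f x)
  rim : ∀ x ∈ Rb M, q (f x)
  face : ∀ x ∈ Jb M, f x ∈ K

/-- The rescaled argument of the capping homotopy. -/
noncomputable def capArg (s : ℝ) (x : (M → ℝ) × ℝ) : (M → ℝ) × ℝ :=
  ((1 + s) / max 1 ((1 + s) * ‖x‖)) • x

/-- The weight of the capping homotopy. -/
noncomputable def capWt (s : ℝ) (x : (M → ℝ) × ℝ) : ℝ := max 0 ((1 + s) * ‖x‖ - 1)

/-- The capping homotopy. -/
noncomputable def cap (e : V) (s : ℝ) (f : (M → ℝ) × ℝ → V) (x : (M → ℝ) × ℝ) : V :=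
  (1 - capWt s x) • f (capArg s x) + capWt s x • e

theorem capWt_nonneg (s : ℝ) (x : (M → ℝ) × ℝ) : 0 ≤ capWt s x := le_max_left _ _

theorem capWt_le {s : ℝ} (hs : 0 ≤ s) {x : (M → ℝ) × ℝ} (hx : x ∈ Qb M) : capWt s x ≤ s := by
  refine max_le hs ?_
  have h1 := norm_le_one_of_mem hx
  nlinarith [norm_nonneg x]

theorem norm_capArg {s : ℝ} (hs : 0 ≤ s) (x : (M → ℝ) × ℝ) :
    ‖capArg s x‖ = min ((1 + s) * ‖x‖) 1 := by
  unfold capArg
  have h0 : 0 < max 1 ((1 + s) * ‖x‖) := lt_of_lt_of_le one_pos (le_max_left _ _)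
  rw [norm_smul, Real.norm_eq_abs, abs_of_nonneg (by positivity)]
  rcases le_total 1 ((1 + s) * ‖x‖) with h | h
  · rw [max_eq_right h, min_eq_right h]
    have h1 : 0 < (1 + s) * ‖x‖ := lt_of_lt_of_le one_pos h
    rw [div_mul_eq_mul_div, div_self h1.ne']
  · rw [max_eq_left h, min_eq_left h, div_one]

theorem snd_capArg_nonneg {s : ℝ} (hs : 0 ≤ s) {x : (M → ℝ) × ℝ} (hx : 0 ≤ x.2) :
    0 ≤ (capArg s x).2 := by
  have h0 : 0 < max 1 ((1 + s) * ‖x‖) := lt_of_lt_of_le one_pos (le_max_left _ _)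
  exact mul_nonneg (by positivity) hx

theorem mem_Qb_of_norm_le {x : (M → ℝ) × ℝ} (h : ‖x‖ ≤ 1) (h2 : 0 ≤ x.2) : x ∈ Qb M := by
  rw [Prod.norm_def] at h
  refine ⟨(le_max_left _ _).trans h, h2, ?_⟩
  exact (le_abs_self _).trans ((le_max_right _ _).trans h)

theorem mem_Jb_of_norm_eq {x : (M → ℝ) × ℝ} (h : ‖x‖ = 1) (h2 : 0 ≤ x.2) : x ∈ Jb M := by
  refine ⟨mem_Qb_of_norm_le h.le h2, ?_⟩
  rw [Prod.norm_def] at h
  rcases max_choice ‖x.1‖ ‖x.2‖ with h1 | h1
  · left
    rw [← h, h1]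
  · right
    rw [h1, Real.norm_eq_abs, abs_of_nonneg h2] at h
    exact h

theorem capArg_mem {s : ℝ} (hs : 0 ≤ s) {x : (M → ℝ) × ℝ} (hx : x ∈ Qb M) :
    capArg s x ∈ Qb M :=
  mem_Qb_of_norm_le (by rw [norm_capArg hs]; exact min_le_right _ _) (snd_capArg_nonneg hs hx.2.1)

theorem capArg_mem_Jb {s : ℝ} (hs : 0 ≤ s) {x : (M → ℝ) × ℝ} (hx : 0 ≤ x.2)
    (h : 1 ≤ (1 + s) * ‖x‖) : capArg s x ∈ Jb M :=
  mem_Jb_of_norm_eq (by rw [norm_capArg hs, min_eq_right h]) (snd_capArg_nonneg hs hx)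

theorem capArg_rim {s : ℝ} (hs : 0 ≤ s) {x : (M → ℝ) × ℝ} (hx : x ∈ Rb M) :
    capArg s x ∈ Rb M := by
  refine ⟨capArg_mem hs hx.1, ?_⟩
  change _ * x.2 = 0
  rw [hx.2, mul_zero]

theorem capWt_eq_zero {s : ℝ} {x : (M → ℝ) × ℝ} (h : (1 + s) * ‖x‖ ≤ 1) : capWt s x = 0 :=
  max_eq_left (by linarith)

theorem capArg_eq {s : ℝ} {x : (M → ℝ) × ℝ} (h : (1 + s) * ‖x‖ ≤ 1) :
    capArg s x = (1 + s) • x := by
  rw [capArg, max_eq_left h, div_one]

theorem capArg_face {s : ℝ} (hs : 0 ≤ s) {x : (M → ℝ) × ℝ} (hx : x ∈ Jb M) : capArg s x = x := by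
  rw [capArg, norm_eq_one_of_mem hx, mul_one, max_eq_right (by linarith), div_self (by linarith),
    one_smul]

theorem capWt_face {s : ℝ} (hs : 0 ≤ s) {x : (M → ℝ) × ℝ} (hx : x ∈ Jb M) : capWt s x = s := by
  rw [capWt, norm_eq_one_of_mem hx, mul_one, max_eq_right (by linarith)]
  ring

theorem cap_of_le {e : V} {s : ℝ} {f : (M → ℝ) × ℝ → V} {x : (M → ℝ) × ℝ}
    (h : (1 + s) * ‖x‖ ≤ 1) : cap e s f x = f ((1 + s) • x) := by
  rw [cap, capWt_eq_zero h, capArg_eq h, sub_zero, one_smul, zero_smul, add_zero]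

theorem cap_face {e : V} {s : ℝ} (hs : 0 ≤ s) {f : (M → ℝ) × ℝ → V} {x : (M → ℝ) × ℝ}
    (hx : x ∈ Jb M) : cap e s f x = (1 - s) • f x + s • e := by
  rw [cap, capWt_face hs hx, capArg_face hs hx]

theorem cap_zero {e : V} {f : (M → ℝ) × ℝ → V} {x : (M → ℝ) × ℝ} (hx : x ∈ Qb M) :
    cap e 0 f x = f x := by
  rw [cap_of_le (by rw [add_zero, one_mul]; exact norm_le_one_of_mem hx), add_zero, one_smul]

theorem cap_one_face {e : V} {f : (M → ℝ) × ℝ → V} {x : (M → ℝ) × ℝ} (hx : x ∈ Jb M) :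
    cap e 1 f x = e := by
  rw [cap_face zero_le_one hx, sub_self, zero_smul, zero_add, one_smul]

/-- Values of the capped map: either a value of `f`, or a point of `K`. -/
theorem cap_mem_cases {f : (M → ℝ) × ℝ → V} (hK : Convex ℝ K) (he : e ∈ K)
    (hf : ∀ x ∈ Jb M, f x ∈ K) {s : ℝ} (hs : s ∈ Icc (0 : ℝ) 1) {x : (M → ℝ) × ℝ}
    (hx : x ∈ Qb M) : cap e s f x = f (capArg s x) ∨ cap e s f x ∈ K := by
  rcases le_total ((1 + s) * ‖x‖) 1 with h | h
  · left
    rw [cap, capWt_eq_zero h, sub_zero, one_smul, zero_smul, add_zero]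
  · right
    have h1 := capWt_le hs.1 hx
    exact hK (hf _ (capArg_mem_Jb hs.1 hx.2.1 h)) he (by linarith [hs.2]) (capWt_nonneg _ _)
      (by ring)

/-- Capping preserves relative spheroids. -/
theorem Sph.cap {f : (M → ℝ) × ℝ → V} (h : Sph p q K f) (hK : Convex ℝ K) (hqp : ∀ v, q v → p v)
    (hKq : ∀ v ∈ K, q v) (he : e ∈ K) {s : ℝ} (hs : s ∈ Icc (0 : ℝ) 1) :
    Sph p q K (cap e s f) where
  cont := by
    have h1 : Continuous fun x : (M → ℝ) × ℝ => capArg s x := by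
      unfold capArg
      refine Continuous.smul (Continuous.div continuous_const
        (continuous_const.max (continuous_const.mul continuous_norm)) fun x => ?_) continuous_id
      exact (lt_of_lt_of_le one_pos (le_max_left _ _)).ne'
    have h2 : Continuous fun x : (M → ℝ) × ℝ => capWt s x := by
      unfold capWt
      fun_prop
    have h3 : ContinuousOn (fun x => f (capArg s x)) (Qb M) :=
      h.cont.comp h1.continuousOn fun x hx => capArg_mem hs.1 hx
    exact ((continuous_const.sub h2).continuousOn.smul h3).add (h2.smul continuous_const).continuousOn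
  mem x hx := by
    rcases cap_mem_cases hK he h.face hs hx with h1 | h1
    · rw [h1]
      exact h.mem _ (capArg_mem hs.1 hx)
    · exact hqp _ (hKq _ h1)
  rim x hx := by
    rcases cap_mem_cases hK he h.face hs hx.1 with h1 | h1
    · rw [h1]
      exact h.rim _ (capArg_rim hs.1 hx)
    · exact hKq _ h1
  face x hx := by
    rw [cap_face hs.1 hx]
    exact hK (h.face x hx) he (by linarith [hs.2]) hs.1 (by ring)

theorem Sph.cap_one {f : (M → ℝ) × ℝ → V} (h : Sph p q K f) (hK : Convex ℝ K)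
    (hqp : ∀ v, q v → p v) (hKq : ∀ v ∈ K, q v) (he : e ∈ K) : Sph p q {e} (R996.cap e 1 f) where
  cont := (h.cap hK hqp hKq he (right_mem_Icc.mpr zero_le_one)).cont
  mem := (h.cap hK hqp hKq he (right_mem_Icc.mpr zero_le_one)).mem
  rim := (h.cap hK hqp hKq he (right_mem_Icc.mpr zero_le_one)).rim
  face x hx := cap_one_face hx

/-- Joint continuity of capping in parameters. -/
theorem continuousOn_cap {T : Type*} [TopologicalSpace T] {S : Set T}
    {F : T → (M → ℝ) × ℝ → V} {sg : T → ℝ}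
    (hF : ContinuousOn (fun z : T × ((M → ℝ) × ℝ) => F z.1 z.2) (S ×ˢ Qb M))
    (hsg : ContinuousOn sg S) (h0 : ∀ t ∈ S, 0 ≤ sg t) :
    ContinuousOn (fun z : T × ((M → ℝ) × ℝ) => R996.cap e (sg z.1) (F z.1) z.2) (S ×ˢ Qb M) := by
  have hsg' : ContinuousOn (fun z : T × ((M → ℝ) × ℝ) => sg z.1) (S ×ˢ Qb M) :=
    hsg.comp continuousOn_fst fun z hz => hz.1
  have hn : ContinuousOn (fun z : T × ((M → ℝ) × ℝ) => (1 + sg z.1) * ‖z.2‖) (S ×ˢ Qb M) :=
    (continuousOn_const.add hsg').mul continuousOn_snd.norm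
  have h1 : ContinuousOn (fun z : T × ((M → ℝ) × ℝ) => capArg (sg z.1) z.2) (S ×ˢ Qb M) := by
    unfold capArg
    refine ContinuousOn.smul (ContinuousOn.div (continuousOn_const.add hsg')
      (continuousOn_const.sup hn) fun z _ => ?_) continuousOn_snd
    exact (lt_of_lt_of_le one_pos (le_max_left _ _)).ne'
  have h2 : ContinuousOn (fun z : T × ((M → ℝ) × ℝ) => capWt (sg z.1) z.2) (S ×ˢ Qb M) := by
    unfold capWt
    exact continuousOn_const.sup (hn.sub continuousOn_const)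
  have h3 : ContinuousOn (fun z : T × ((M → ℝ) × ℝ) => F z.1 (capArg (sg z.1) z.2)) (S ×ˢ Qb M) :=
    hF.comp (f := fun z : T × ((M → ℝ) × ℝ) => (z.1, capArg (sg z.1) z.2))
      (continuousOn_fst.prodMk h1) fun z hz => ⟨hz.1, capArg_mem (h0 _ hz.1) hz.2⟩
  exact ((continuousOn_const.sub h2).smul h3).add (h2.smul continuousOn_const)

end Basic

end Vale.Agent.P268.T.R996
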