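import Vale.Agent.P268.T.R996.Cap
import Vale.Agent.P268.T.A109.Types

/-!
# Classes of relative spheroids whose faces lie in a convex set

`cl ha f` : the class of a map of `(Qb, Rb, Jb)` to `(X, A, a)`, `X = {v // p v}`.
`clsP ha f` : the class of `cap a 1 f`, for maps whose faces `Jb` lie in a convex set `K ∋ a`.
-/

set_option linter.unusedSectionVars false

namespace Vale.Agent.P268.T.R996

open Set Topology
open scoped unitInterval Topology.Homotopy
open Vale.Agent.P268.H288 Vale.Agent.P268.T.A109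

section Cubes

variable {M : Type*} [Fintype M]

/-- The unit cube onto `Qb`. -/
def em (z : (M → I) × I) : (M → ℝ) × ℝ := (fun i => 2 * (z.1 i : ℝ) - 1, (z.2 : ℝ))

theorem continuous_em : Continuous (em (M := M)) := by
  unfold em
  fun_prop

theorem em_mem (z : (M → I) × I) : em z ∈ Qb M := by
  refine ⟨(pi_norm_le_iff_of_nonneg zero_le_one).mpr fun i => ?_, z.2.2.1, z.2.2.2⟩
  rw [Real.norm_eq_abs, abs_le]
  have h1 := (z.1 i).2.1
  have h2 := (z.1 i).2.2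
  constructor
  · change -1 ≤ 2 * (z.1 i : ℝ) - 1
    linarith
  · change 2 * (z.1 i : ℝ) - 1 ≤ 1
    linarith

theorem em_rim (y : M → I) : em (y, (0 : I)) ∈ Rb M := ⟨em_mem _, rfl⟩

theorem em_top (y : M → I) : em (y, (1 : I)) ∈ Jb M := ⟨em_mem _, Or.inr rfl⟩

theorem norm_eq_one_of_abs {y : M → ℝ} (h : ‖y‖ ≤ 1) {i : M} (hi : |y i| = 1) : ‖y‖ = 1 :=
  le_antisymm h (hi ▸ norm_le_pi_norm y i)

theorem em_side {y : M → I} (hy : y ∈ Cube.boundary M) (t : I) : em (y, t) ∈ Jb M := by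
  refine ⟨em_mem _, Or.inl ?_⟩
  obtain ⟨i, hi⟩ := hy
  refine norm_eq_one_of_abs (em_mem (y, t)).1 (i := i) ?_
  change |2 * (y i : ℝ) - 1| = 1
  rcases hi with hi | hi
  · rw [hi]
    norm_num
  · rw [hi]
    norm_num

end Cubes

section Class

variable {M : Type*} [Fintype M] {V : Type*} [NormedAddCommGroup V] [NormedSpace ℝ V]
  {p : V → Prop} {A : Set {v // p v}} {a : {v // p v}} {K : Set V}

/-- The subspace as a predicate on `V`. -/
def qq (A : Set {v // p v}) (v : V) : Prop := ∃ h : p v, (⟨v, h⟩ : {v // p v}) ∈ A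

theorem qq_p {v : V} (h : qq A v) : p v := h.choose

theorem qq_of_mem {x : {v // p v}} (h : x ∈ A) : qq A x.1 := ⟨x.2, h⟩

/-- The generalized loop of a spheroid. -/
def glOf (ha : a ∈ A) (f : (M → ℝ) × ℝ → V) (hf : Sph p (qq A) {a.1} f) : RL M ha :=
  PP.toGL ha ⟨fun z => ⟨f (em z), hf.mem _ (em_mem z)⟩, Continuous.subtype_mk
    (hf.cont.comp_continuous continuous_em em_mem) _⟩
    { rim := fun y => (hf.rim _ (em_rim y)).choose_spec
      top := fun y => Subtype.ext (hf.face _ (em_top y))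
      side := fun _ hy t => Subtype.ext (hf.face _ (em_side hy t)) }

theorem glOf_apply (ha : a ∈ A) (f : (M → ℝ) × ℝ → V) (hf : Sph p (qq A) {a.1} f) (y : M → I)
    (t : I) : ((glOf ha f hf y).1 t : V) = f (em (y, t)) := rfl

open Classical in
/-- The class of a spheroid. -/
noncomputable def cl (ha : a ∈ A) (f : (M → ℝ) × ℝ → V) : RG M ha :=
  if h : Sph p (qq A) {a.1} f then hcl (glOf ha f h) else hcl GenLoop.const

theorem cl_eq (ha : a ∈ A) {f : (M → ℝ) × ℝ → V} (hf : Sph p (qq A) {a.1} f) :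
    cl ha f = hcl (glOf ha f hf) := dif_pos hf

/-- Homotopic spheroids have the same class. -/
theorem cl_homotopic (ha : a ∈ A) {F : ℝ → (M → ℝ) × ℝ → V}
    (hF : ContinuousOn (fun z : ℝ × ((M → ℝ) × ℝ) => F z.1 z.2) (Icc 0 1 ×ˢ Qb M))
    (h : ∀ s ∈ Icc (0 : ℝ) 1, Sph p (qq A) {a.1} (F s)) : cl ha (F 0) = cl ha (F 1) := by
  rw [cl_eq ha (h 0 (left_mem_Icc.mpr zero_le_one)),
    cl_eq ha (h 1 (right_mem_Icc.mpr zero_le_one)), hcl_eq_iff, PP.homotopic_iff]
  refine ⟨⟨fun z => ⟨F z.1 (em z.2), (h z.1 z.1.2).mem _ (em_mem _)⟩, ?_⟩, ?_, ?_, ?_⟩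
  · refine Continuous.subtype_mk ?_ _
    refine hF.comp_continuous (f := fun z : I × ((M → I) × I) => ((z.1 : ℝ), em z.2))
      (by have := continuous_em (M := M); fun_prop) fun z => ⟨z.1.2, em_mem _⟩
  · intro y
    rfl
  · intro y
    rfl
  · intro s
    exact
      { rim := fun y => ((h s s.2).rim _ (em_rim y)).choose_spec
        top := fun y => Subtype.ext ((h s s.2).face _ (em_top y))
        side := fun _ hy t => Subtype.ext ((h s s.2).face _ (em_side hy t)) }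

theorem Sph.congr {q : V → Prop} {f g : (M → ℝ) × ℝ → V} (hf : Sph p q K f)
    (h : ∀ x ∈ Qb M, g x = f x) : Sph p q K g where
  cont := hf.cont.congr h
  mem x hx := by rw [h x hx]; exact hf.mem x hx
  rim x hx := by rw [h x hx.1]; exact hf.rim x hx
  face x hx := by rw [h x hx.1]; exact hf.face x hx

theorem cl_congr (ha : a ∈ A) {f g : (M → ℝ) × ℝ → V} (h : ∀ x ∈ Qb M, f x = g x) :
    cl ha f = cl ha g := by
  by_cases hf : Sph p (qq A) {a.1} f
  · have hg : Sph p (qq A) {a.1} g := hf.congr fun x hx => (h x hx).symm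
    rw [cl_eq ha hf, cl_eq ha hg]
    congr 1
    ext y
    refine PP.ext fun t => Subtype.ext ?_
    exact h _ (em_mem _)
  · have hg : ¬ Sph p (qq A) {a.1} g := fun hg => hf (hg.congr h)
    unfold cl
    rw [dif_neg hf, dif_neg hg]

/-- The class of a spheroid with faces in a convex set. -/
noncomputable def clsP (ha : a ∈ A) (f : (M → ℝ) × ℝ → V) : RG M ha := cl ha (cap a.1 1 f)

theorem cap_congr {e : V} {s : ℝ} (hs : 0 ≤ s) {f g : (M → ℝ) × ℝ → V}
    (h : ∀ x ∈ Qb M, f x = g x) {x : (M → ℝ) × ℝ} (hx : x ∈ Qb M) : cap e s f x = cap e s g x := by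
  unfold cap
  rw [h _ (capArg_mem hs hx)]

theorem clsP_congr (ha : a ∈ A) {f g : (M → ℝ) × ℝ → V} (h : ∀ x ∈ Qb M, f x = g x) :
    clsP ha f = clsP ha g :=
  cl_congr ha fun _ hx => cap_congr zero_le_one h hx

/-- Convex sets of admissible face values. -/
structure Fc (A : Set {v // p v}) (a : {v // p v}) (K : Set V) : Prop where
  conv : Convex ℝ K
  sub : ∀ v ∈ K, qq A v
  base : a.1 ∈ K

theorem Fc.single (ha : a ∈ A) : Fc A a {a.1} :=
  ⟨convex_singleton _, fun v hv => by rw [mem_singleton_iff.mp hv]; exact qq_of_mem ha, rfl⟩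

theorem Fc.cap_one (hK : Fc A a K) {f : (M → ℝ) × ℝ → V} (hf : Sph p (qq A) K f) :
    Sph p (qq A) {a.1} (cap a.1 1 f) :=
  hf.cap_one hK.conv (fun _ h => qq_p h) hK.sub hK.base

theorem Fc.cap (hK : Fc A a K) {f : (M → ℝ) × ℝ → V} (hf : Sph p (qq A) K f) {s : ℝ}
    (hs : s ∈ Icc (0 : ℝ) 1) : Sph p (qq A) K (R996.cap a.1 s f) :=
  hf.cap hK.conv (fun _ h => qq_p h) hK.sub hK.base hs

/-- **Homotopy invariance of `clsP`.** -/
theorem clsP_homotopic (ha : a ∈ A) (hK : Fc A a K) {F : ℝ → (M → ℝ) × ℝ → V}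
    (hF : ContinuousOn (fun z : ℝ × ((M → ℝ) × ℝ) => F z.1 z.2) (Icc 0 1 ×ˢ Qb M))
    (h : ∀ s ∈ Icc (0 : ℝ) 1, Sph p (qq A) K (F s)) : clsP ha (F 0) = clsP ha (F 1) := by
  have h1 : ContinuousOn (fun z : ℝ × ((M → ℝ) × ℝ) => R996.cap a.1 1 (F z.1) z.2)
      (Icc 0 1 ×ˢ Qb M) :=
    continuousOn_cap (sg := fun _ => 1) hF continuousOn_const fun _ _ => zero_le_one
  have h2 : ∀ s ∈ Icc (0 : ℝ) 1, Sph p (qq A) {a.1} (R996.cap a.1 1 (F s)) :=
    fun s hs => hK.cap_one (h s hs)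
  have h3 := cl_homotopic ha (F := fun s => R996.cap a.1 1 (F s)) h1 h2
  exact h3

theorem clsP_eq_cl (ha : a ∈ A) {f : (M → ℝ) × ℝ → V} (hf : Sph p (qq A) {a.1} f) :
    clsP ha f = cl ha f := by
  have hF : ContinuousOn (fun z : ℝ × ((M → ℝ) × ℝ) => f z.2) (Icc 0 1 ×ˢ Qb M) :=
    hf.cont.comp continuousOn_snd fun z hz => hz.2
  have h0 : ContinuousOn (fun z : ℝ × ((M → ℝ) × ℝ) => R996.cap a.1 z.1 f z.2)
      (Icc 0 1 ×ˢ Qb M) :=
    continuousOn_cap (sg := fun s => s) (F := fun _ => f) hF continuousOn_id fun t ht => ht.1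
  have h1 : cl ha (R996.cap a.1 0 f) = cl ha (R996.cap a.1 1 f) :=
    cl_homotopic ha (F := fun s => R996.cap a.1 s f) h0
      fun s hs => (Fc.single ha).cap hf hs
  rw [clsP, ← h1]
  exact cl_congr ha fun x hx => cap_zero hx

/-- The class of a map with values in `K` is trivial. -/
theorem clsP_of_mem (ha : a ∈ A) (hK : Fc A a K) {f : (M → ℝ) × ℝ → V}
    (hf : ContinuousOn f (Qb M)) (h : ∀ x ∈ Qb M, f x ∈ K) :
    clsP ha f = hcl GenLoop.const := by
  have h1 := clsP_homotopic ha hK (F := fun s x => (1 - s) • f x + s • a.1) ?_ ?_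
  · simp only [sub_zero, one_smul, zero_smul, add_zero, sub_self, zero_add] at h1
    refine h1.trans ?_
    have h2 : Sph p (qq A) {a.1} (fun _ : (M → ℝ) × ℝ => a.1) :=
      ⟨continuousOn_const, fun _ _ => a.2, fun _ _ => qq_of_mem ha, fun _ _ => rfl⟩
    rw [clsP_eq_cl ha h2, cl_eq ha h2]
    congr 1
  · have h3 : ContinuousOn (fun z : ℝ × ((M → ℝ) × ℝ) => f z.2) (Icc 0 1 ×ˢ Qb M) :=
      hf.comp continuousOn_snd fun z hz => hz.2
    exact ((continuousOn_const.sub continuousOn_fst).smul h3).add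
      (continuousOn_fst.smul continuousOn_const)
  · intro s hs
    have h4 : ∀ x ∈ Qb M, (1 - s) • f x + s • a.1 ∈ K := fun x hx =>
      hK.conv (h x hx) hK.base (by linarith [hs.2]) hs.1 (by ring)
    exact ⟨(continuousOn_const.smul hf).add continuousOn_const,
      fun x hx => qq_p (hK.sub _ (h4 x hx)), fun x hx => hK.sub _ (h4 x hx.1),
      fun x hx => h4 x hx.1⟩

/-- Reparametrisations. -/
theorem clsP_reparam (ha : a ∈ A) (hK : Fc A a K) {f : (M → ℝ) × ℝ → V}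
    (hf : Sph p (qq A) K f) {Φ : ℝ → (M → ℝ) × ℝ → (M → ℝ) × ℝ}
    (hΦ : ContinuousOn (fun z : ℝ × ((M → ℝ) × ℝ) => Φ z.1 z.2) (Icc 0 1 ×ˢ Qb M))
    (hQ : ∀ s ∈ Icc (0 : ℝ) 1, ∀ x ∈ Qb M, Φ s x ∈ Qb M)
    (hJ : ∀ s ∈ Icc (0 : ℝ) 1, ∀ x ∈ Jb M, Φ s x ∈ Jb M)
    (hR : ∀ s ∈ Icc (0 : ℝ) 1, ∀ x ∈ Rb M, Φ s x ∈ Jb M ∪ Rb M) :
    clsP ha (fun x => f (Φ 0 x)) = clsP ha (fun x => f (Φ 1 x)) := by
  refine clsP_homotopic ha hK (F := fun s x => f (Φ s x)) ?_ ?_
  · exact hf.cont.comp hΦ fun z hz => hQ z.1 hz.1 z.2 hz.2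
  · intro s hs
    refine ⟨?_, fun x hx => hf.mem _ (hQ s hs x hx), fun x hx => ?_,
      fun x hx => hf.face _ (hJ s hs x hx)⟩
    · refine hf.cont.comp ?_ (hQ s hs)
      exact hΦ.comp (f := fun x => (s, x)) (by fun_prop) fun x hx => ⟨hs, hx⟩
    · rcases hR s hs x hx with h | h
      · exact hK.sub _ (hf.face _ h)
      · exact hf.rim _ h

end Class

end Vale.Agent.P268.T.R996
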