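import Vale.Agent.P268.T.R996.Win2

/-!
# The end data of the slide

`EndHyp` : data of the normal form which over `x 0 ≤ -1/2` consist of the letter `b` of the strand
`k`, over `1/4 ≤ x 0 ≤ 1/2` of the braid `c` with the strand `k` replaced by a parallel copy of the
strand `j`, with the additional twist of `k` over `-3/8 ≤ x 0 ≤ -1/4`.
`EndHyp.sph` : these data have ordered faces.
-/

set_option linter.unusedSectionVars false

namespace Vale.Agent.P268.T.R996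

open Set Topology Metric
open scoped unitInterval Topology.Homotopy RealInnerProductSpace
open Vale.Agent.P268.H288 Vale.Agent.P268.T.A109
open Vale.Agent.P268.T.H839 (sg sg_ne sg_pos am Nb)

section Chart

variable {m : ℕ}

/-- The inverse of `x ↦ em (cubeM x)`. -/
noncomputable def ei (x : (Fin m → ℝ) × ℝ) : Fin (m + 1) → ℝ :=
  Fin.snoc (α := fun _ => ℝ) x.1 (2 * x.2 - 1)

theorem ei_castSucc (x : (Fin m → ℝ) × ℝ) (i : Fin m) : ei x i.castSucc = x.1 i := by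
  unfold ei
  rw [Fin.snoc_castSucc]

theorem ei_last (x : (Fin m → ℝ) × ℝ) : ei x (Fin.last m) = 2 * x.2 - 1 := by
  unfold ei
  rw [Fin.snoc_last]

theorem ei_zero [NeZero m] (x : (Fin m → ℝ) × ℝ) : ei x 0 = x.1 0 := by
  rw [← Fin.castSucc_zero', ei_castSucc]

theorem continuous_ei : Continuous (ei (m := m)) := by
  refine continuous_pi fun i => ?_
  rcases Fin.eq_castSucc_or_eq_last i with ⟨l, rfl⟩ | rfl
  · simp only [ei_castSucc]
    fun_prop
  · simp only [ei_last]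
    fun_prop

theorem norm_ei_le {x : (Fin m → ℝ) × ℝ} (hx : x ∈ Qb (Fin m)) : ‖ei x‖ ≤ 1 := by
  obtain ⟨h1, h2, h3⟩ := mem_Qb_iff.mp hx
  refine (pi_norm_le_iff_of_nonneg zero_le_one).mpr fun i => ?_
  rcases Fin.eq_castSucc_or_eq_last i with ⟨l, rfl⟩ | rfl
  · rw [ei_castSucc]
    exact h1 l
  · rw [ei_last, Real.norm_eq_abs, abs_le]
    constructor <;> linarith

theorem norm_ei_eq {x : (Fin m → ℝ) × ℝ} (hx : x ∈ Jb (Fin m) ∪ Rb (Fin m)) : ‖ei x‖ = 1 := by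
  have hQ : x ∈ Qb (Fin m) := hx.elim (fun h => h.1) fun h => h.1
  refine le_antisymm (norm_ei_le hQ) ?_
  rcases hx with hx | hx
  · rcases (mem_Jb_iff.mp hx).2 with ⟨i, hi⟩ | h
    · rw [← hi, ← ei_castSucc]
      exact norm_le_pi_norm (ei x) i.castSucc
    · have h1 := norm_le_pi_norm (ei x) (Fin.last m)
      rw [ei_last, h] at h1
      norm_num at h1
      exact h1
  · have h1 := norm_le_pi_norm (ei x) (Fin.last m)
    rw [ei_last, hx.2] at h1
    norm_num at h1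
    exact h1

theorem cubeM_ei (x : (Fin m → ℝ) × ℝ) : cubeM (ei x) = ci x := by
  refine Prod.ext (funext fun i => ?_) ?_
  · change projIcc 0 1 zero_le_one ((ei x i.castSucc + 1) / 2) = _
    rw [ei_castSucc]
    rfl
  · change projIcc 0 1 zero_le_one ((ei x (Fin.last m) + 1) / 2) = projIcc 0 1 zero_le_one x.2
    rw [ei_last]
    congr 1
    ring

theorem ei_em_cubeM {y : Fin (m + 1) → ℝ} (hy : ‖y‖ ≤ 1) : ei (em (cubeM y)) = y := by
  rw [em_cubeM hy]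
  funext i
  rcases Fin.eq_castSucc_or_eq_last i with ⟨l, rfl⟩ | rfl
  · rw [ei_castSucc]
  · rw [ei_last]
    change 2 * ((y (Fin.last m) + 1) / 2) - 1 = _
    ring

/-- A face point stays a face point after a change of the first coordinate. -/
theorem atz_face [NeZero m] {x : (Fin m → ℝ) × ℝ} (hx : x ∈ Jb (Fin m)) {u : ℝ}
    (h1 : x.1 0 = 1 → 1 ≤ u) (h2 : x.1 0 = -1 → u ≤ 0) :
    (atz 0 u (ci x)).1 ∈ Cube.boundary (Fin m) ∨ (atz 0 u (ci x)).2 = 1 := by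
  rcases (mem_Jb_iff.mp hx).2 with ⟨i, hi⟩ | h
  · left
    by_cases hi0 : i = 0
    · subst hi0
      rcases (abs_eq zero_le_one).mp hi with h | h
      · exact atz_of_one_le _ (h1 h) _
      · exact atz_of_nonpos _ (h2 h) _
    · refine ⟨i, ?_⟩
      have e1 : (atz 0 u (ci x)).1 i = projIcc 0 1 zero_le_one ((x.1 i + 1) / 2) := by
        change Function.update _ 0 _ i = _
        rw [Function.update_of_ne hi0]
        rfl
      rw [e1]
      rcases (abs_eq zero_le_one).mp hi with h | h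
      · right
        rw [h, projIcc_of_right_le]
        · rfl
        · norm_num
      · left
        rw [h, projIcc_of_le_left]
        · rfl
        · norm_num
  · right
    change projIcc 0 1 zero_le_one x.2 = 1
    rw [h]
    exact projIcc_right _

end Chart

variable {V : Type*} [NormedAddCommGroup V] [InnerProductSpace ℝ V] (φ : Fr V) {m r : ℕ}
  [NeZero m]

/-- **The end data of the slide.** -/
structure EndHyp (b c : φ.BrL (Fin m) r) (θ : φ.PiL (Fin m)) (j k : Fin r) (s : ℝ) (w₀ : V)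
    (B N : Option (Fin r) → (Fin (m + 1) → ℝ) → V) : Prop where
  hs : 0 < s
  hs' : s ≤ 1 / 2
  dat : BData φ.h B N
  none : ∀ x, ‖x‖ ≤ 1 → B none x = w₀ ∧ N none x = φ.h
  oth : ∀ i, i ≠ k → ∀ x, ‖x‖ ≤ 1 →
    B (some i) x = (lv c (atz 0 (4 * x 0 - 1) (cubeM x))).1.1 i ∧
      N (some i) x = (lv c (atz 0 (4 * x 0 - 1) (cubeM x))).2 i
  kL : ∀ x, ‖x‖ ≤ 1 → x 0 ≤ -1 / 2 →
    B (some k) x = (lv b (atz 0 (4 * x 0 + 3) (cubeM x))).1.1 k ∧
      N (some k) x = (lv b (atz 0 (4 * x 0 + 3) (cubeM x))).2 k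
  kM : ∀ x, ‖x‖ ≤ 1 → -1 / 2 ≤ x 0 → x 0 ≤ 1 / 4 → ∃ t ∈ Icc (0 : ℝ) 1,
    B (some k) x =
      φ.base r k + t • (φ.base r j + (2 * s) • (sg j k • φ.e) - φ.base r k)
  nG : ∀ x, ‖x‖ ≤ 1 → -3 / 8 ≤ x 0 → x 0 ≤ -1 / 4 →
    N (some k) x = rf ((lv b (atz 0 (8 * x 0 + 3) (cubeM x))).1.1 k - φ.base r j) φ.h
  nM : ∀ x, ‖x‖ ≤ 1 → ((-1 / 2 ≤ x 0 ∧ x 0 ≤ -3 / 8) ∨ (-1 / 4 ≤ x 0 ∧ x 0 ≤ 1 / 4)) →
    N (some k) x = φ.h
  kR : ∀ x, ‖x‖ ≤ 1 → 1 / 4 ≤ x 0 →
    B (some k) x = B (some j) x +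
        (2 * s) • (sg j k • am φ (lv θ (atz 0 (4 * x 0 - 1) (cubeM x)))) ∧
      N (some k) x = N (some j) x
  far : ∀ i, i ≠ j → i ≠ k → ∀ x, ‖x‖ ≤ 1 → 1 / 4 ≤ x 0 → ∀ t ∈ Icc (0 : ℝ) (2 * s),
    B (some i) x ≠ B (some j) x +
      t • (sg j k • am φ (lv θ (atz 0 (4 * x 0 - 1) (cubeM x))))

/-- The data as a map on `Qb`. -/
noncomputable def fD (B N : Option (Fin r) → (Fin (m + 1) → ℝ) → V) (x : (Fin m → ℝ) × ℝ) :
    FC V r := (fun i => B (some i) (ei x), fun i => N (some i) (ei x))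

/-- Positions between the strands `j` and `k`. -/
noncomputable def mid (r : ℕ) (j k : Fin r) (τ : ℝ) : V :=
  (1 - τ) • φ.base r j + τ • φ.base r k

theorem base_inner (i : Fin r) : ⟪φ.e, φ.base r i⟫ = (i : ℝ) + 1 := by
  change ⟪φ.e, ((i : ℝ) + 1) • φ.e⟫ = _
  rw [inner_smul_right, real_inner_self_eq_norm_sq, φ.he]
  ring

theorem base_h (i : Fin r) : ⟪φ.h, φ.base r i⟫ = 0 := by
  change ⟪φ.h, ((i : ℝ) + 1) • φ.e⟫ = 0
  rw [inner_smul_right, φ.heh, mul_zero]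

theorem base_sub_nb {j k : Fin r} (hjk : Nb j k) : φ.base r k - φ.base r j = sg j k • φ.e := by
  change ((k : ℝ) + 1) • φ.e - ((j : ℝ) + 1) • φ.e = _
  rw [← sub_smul]
  congr 1
  unfold sg
  rcases hjk with h | h
  · have h1 : j < k := by rw [Fin.lt_def]; omega
    rw [if_pos h1]
    have h2 : ((k : ℕ) : ℝ) = (j : ℕ) + 1 := by exact_mod_cast h.symm
    rw [h2]
    ring
  · have h1 : ¬ j < k := by rw [Fin.lt_def]; omega
    rw [if_neg h1]
    have h2 : ((j : ℕ) : ℝ) = (k : ℕ) + 1 := by exact_mod_cast h.symm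
    rw [h2]
    ring

theorem mid_one (j k : Fin r) : mid φ r j k 1 = φ.base r k := by
  unfold mid
  rw [sub_self, zero_smul, zero_add, one_smul]

theorem mid_K0 {j k : Fin r} (hjk : Nb j k) {τ : ℝ} (h0 : 0 < τ) (h1 : τ ≤ 1) {i : Fin r}
    (hi : i ≠ k) : sg i k • (mid φ r j k τ - φ.base r i) ∈ K0 φ := by
  refine ⟨?_, ?_⟩
  · unfold mid
    rw [inner_smul_right, inner_sub_right, inner_add_right, inner_smul_right, inner_smul_right,
      base_h, base_h, base_h]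
    ring
  · have h2 := sg_pos hi
    have e1 : ⟪φ.e, sg i k • (mid φ r j k τ - φ.base r i)⟫ =
        (1 - τ) * (sg i k * ((j : ℝ) - i)) + τ * (sg i k * ((k : ℝ) - i)) := by
      unfold mid
      rw [inner_smul_right, inner_sub_right, inner_add_right, inner_smul_right, inner_smul_right,
        base_inner, base_inner, base_inner]
      ring
    rw [e1]
    have h3 : 0 ≤ sg i k * ((j : ℝ) - i) := by
      by_cases hij : i = j
      · subst hij
        rw [sub_self, mul_zero]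
      · rw [H839.sg_nb hjk hij hi]
        exact (sg_pos hij).le
    nlinarith [mul_pos h0 h2, mul_nonneg (sub_nonneg.mpr h1) h3]

/-- A configuration in which the strand `k` is between its place and that of `j`. -/
def IsOut (j k : Fin r) (w : FC V r) : Prop :=
  (∀ i, i ≠ k → w.1 i = φ.base r i) ∧ ∃ τ ∈ Ioc (0 : ℝ) 1, w.1 k = mid φ r j k τ

theorem IsOut.dU_mem {j k : Fin r} (hjk : Nb j k) {w : FC V r} (hw : IsOut φ j k w)
    {i l : Fin r} (h : i ≠ l) : dU i l w ∈ K0 φ := by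
  obtain ⟨h1, τ, hτ, h2⟩ := hw
  have key : ∀ i, i ≠ k → dU i k w ∈ K0 φ := by
    intro i hi
    unfold dU
    rw [h1 i hi, h2]
    exact mid_K0 φ hjk hτ.1 hτ.2 hi
  by_cases hl : l = k
  · subst hl
    exact key i h
  by_cases hi : i = k
  · subst hi
    rw [dU_comm h]
    exact key l hl
  · have h3 := dU_mem_K0 φ h (bC_mem φ (r := r))
    unfold dU at h3 ⊢
    rw [h1 i hi, h1 l hl]
    exact h3

theorem kc_of_out {j k : Fin r} (hjk : Nb j k) {w : FC V r} (hw : IsOut φ j k w)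
    (hq : QC φ w) : w ∈ KC φ := by
  refine ⟨hq.2.1, fun i l hil => ?_, hq.2.2⟩
  have h1 := (hw.dU_mem φ hjk hil.ne).2
  unfold dU at h1
  have h2 : sg i l = 1 := if_pos hil
  rwa [h2, one_smul] at h1

section End

variable {φ} {b c : φ.BrL (Fin m) r} {θ : φ.PiL (Fin m)} {j k : Fin r} {s : ℝ} {w₀ : V}
  {B N : Option (Fin r) → (Fin (m + 1) → ℝ) → V}

theorem EndHyp.cont (h : EndHyp φ b c θ j k s w₀ B N) :
    ContinuousOn (fD (m := m) B N) (Qb (Fin m)) := by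
  have h1 : ∀ a, ContinuousOn (fun x => B a (ei x)) (Qb (Fin m)) := fun a =>
    (h.dat.cb a).comp (f := fun x => ((), ei x)) (continuous_const.prodMk continuous_ei).continuousOn
      fun x hx => ⟨mem_univ _, mem_closedBall_zero_iff.mpr (norm_ei_le hx)⟩
  have h2 : ∀ a, ContinuousOn (fun x => N a (ei x)) (Qb (Fin m)) := fun a =>
    (h.dat.cn a).comp (f := fun x => ((), ei x)) (continuous_const.prodMk continuous_ei).continuousOn
      fun x hx => ⟨mem_univ _, mem_closedBall_zero_iff.mpr (norm_ei_le hx)⟩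
  exact (continuousOn_pi.mpr fun i => h1 (some i)).prodMk (continuousOn_pi.mpr fun i => h2 (some i))

theorem EndHyp.pc (h : EndHyp φ b c θ j k s w₀ B N) {x : (Fin m → ℝ) × ℝ} (hx : x ∈ Qb (Fin m)) :
    PC (fD B N x) := by
  have hx' : ei x ∈ closedBall (0 : Fin (m + 1) → ℝ) 1 :=
    mem_closedBall_zero_iff.mpr (norm_ei_le hx)
  refine ⟨fun i l hil => ?_, fun i => h.dat.nn () (mem_univ _) (some i) _ hx'⟩
  exact Option.some_injective _ (h.dat.inj () (mem_univ _) _ hx' hil)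

theorem EndHyp.qc (h : EndHyp φ b c θ j k s w₀ B N) {x : (Fin m → ℝ) × ℝ}
    (hx : x ∈ Jb (Fin m) ∪ Rb (Fin m)) : QC φ (fD B N x) := by
  have hQ : x ∈ Qb (Fin m) := hx.elim (fun h => h.1) fun h => h.1
  refine ⟨(h.pc hQ).1, fun i => ?_, fun i => h.dat.nh () (mem_univ _) (some i) _ (norm_ei_eq hx)⟩
  rw [real_inner_comm]
  exact h.dat.bh () (mem_univ _) (some i) _ (norm_ei_eq hx)

theorem EndHyp.oth' (h : EndHyp φ b c θ j k s w₀ B N) {i : Fin r} (hi : i ≠ k)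
    {x : (Fin m → ℝ) × ℝ} (hx : x ∈ Qb (Fin m)) :
    (fD B N x).1 i = (fBr φ c (atz 0 (4 * x.1 0 - 1) (ci x))).1 i ∧
      (fD B N x).2 i = (fBr φ c (atz 0 (4 * x.1 0 - 1) (ci x))).2 i := by
  have h1 := h.oth i hi (ei x) (norm_ei_le hx)
  rw [ei_zero, cubeM_ei] at h1
  exact h1

theorem EndHyp.kL' (h : EndHyp φ b c θ j k s w₀ B N) {x : (Fin m → ℝ) × ℝ}
    (hx : x ∈ Qb (Fin m)) (h0 : x.1 0 ≤ -1 / 2) :
    (fD B N x).1 k = (fBr φ b (atz 0 (4 * x.1 0 + 3) (ci x))).1 k ∧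
      (fD B N x).2 k = (fBr φ b (atz 0 (4 * x.1 0 + 3) (ci x))).2 k := by
  have h1 := h.kL (ei x) (norm_ei_le hx) (by rwa [ei_zero])
  rw [ei_zero, cubeM_ei] at h1
  exact h1

theorem EndHyp.kM' (h : EndHyp φ b c θ j k s w₀ B N) (hjk : Nb j k) {x : (Fin m → ℝ) × ℝ}
    (hx : x ∈ Qb (Fin m)) (h0 : -1 / 2 ≤ x.1 0) (h1 : x.1 0 ≤ 1 / 4) :
    ∃ τ ∈ Ioc (0 : ℝ) 1, (fD B N x).1 k = mid φ r j k τ := by
  obtain ⟨t, ht, h2⟩ := h.kM (ei x) (norm_ei_le hx) (by rwa [ei_zero]) (by rwa [ei_zero])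
  have hs := h.hs
  have hs' := h.hs'
  refine ⟨1 - t * (1 - 2 * s), ⟨?_, ?_⟩, ?_⟩
  · nlinarith [ht.1, ht.2]
  · nlinarith [ht.1, ht.2]
  · change B (some k) (ei x) = _
    rw [h2, ← base_sub_nb φ hjk, mid]
    module

theorem EndHyp.kR' (h : EndHyp φ b c θ j k s w₀ B N) {x : (Fin m → ℝ) × ℝ}
    (hx : x ∈ Qb (Fin m)) (h0 : 1 / 4 ≤ x.1 0) :
    (fD B N x).1 k = (fD B N x).1 j +
        (2 * s) • (sg j k • am φ (lv θ (atz 0 (4 * x.1 0 - 1) (ci x)))) ∧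
      (fD B N x).2 k = (fD B N x).2 j := by
  have h1 := h.kR (ei x) (norm_ei_le hx) (by rwa [ei_zero])
  rw [ei_zero, cubeM_ei] at h1
  exact h1

theorem EndHyp.mid_two (h : EndHyp φ b c θ j k s w₀ B N) (hjk : Nb j k) :
    φ.base r j + (2 * s) • (sg j k • am φ φ.e0) = mid φ r j k (2 * s) := by
  rw [H839.am_e0, ← base_sub_nb φ hjk, mid]
  module

/-- Outside the windows. -/
theorem EndHyp.out (h : EndHyp φ b c θ j k s w₀ B N) (hjk : Nb j k) {x : (Fin m → ℝ) × ℝ}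
    (hx : x ∈ Qb (Fin m))
    (h0 : x.1 0 ≤ -3 / 4 ∨ (-1 / 2 ≤ x.1 0 ∧ x.1 0 ≤ 1 / 4) ∨ 1 / 2 ≤ x.1 0) :
    IsOut φ j k (fD B N x) := by
  have hs := h.hs
  have hs' := h.hs'
  have hb : x.1 0 ≤ 1 / 4 ∨ 1 / 2 ≤ x.1 0 := by
    rcases h0 with h0 | h0 | h0
    · left; linarith
    · left; exact h0.2
    · right; exact h0
  have hface : (atz 0 (4 * x.1 0 - 1) (ci x)).1 ∈ Cube.boundary (Fin m) := by
    rcases hb with hb | hb
    · exact atz_of_nonpos _ (by linarith) _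
    · exact atz_of_one_le _ (by linarith) _
  have hoth : ∀ i, i ≠ k → (fD B N x).1 i = φ.base r i := fun i hi => by
    rw [(h.oth' hi hx).1, fBr_face φ c (Or.inl hface)]
    rfl
  refine ⟨hoth, ?_⟩
  rcases h0 with h0 | h0 | h0
  · refine ⟨1, ⟨one_pos, le_rfl⟩, ?_⟩
    rw [(h.kL' hx (by linarith)).1, fBr_face φ b (Or.inl (atz_of_nonpos _ (by linarith) _)),
      mid_one]
    rfl
  · exact h.kM' hjk hx h0.1 h0.2
  · refine ⟨2 * s, ⟨by linarith, by linarith⟩, ?_⟩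
    rw [(h.kR' hx (by linarith)).1, hoth j hjk.ne, ← h.mid_two hjk,
      show lv θ (atz 0 (4 * x.1 0 - 1) (ci x)) = φ.e0 from lv_face θ (Or.inl hface)]

/-- On the faces. -/
theorem EndHyp.outJ (h : EndHyp φ b c θ j k s w₀ B N) (hjk : Nb j k) {x : (Fin m → ℝ) × ℝ}
    (hx : x ∈ Jb (Fin m)) : IsOut φ j k (fD B N x) := by
  have hs := h.hs
  have hs' := h.hs'
  have hface : (atz 0 (4 * x.1 0 - 1) (ci x)).1 ∈ Cube.boundary (Fin m) ∨
      (atz 0 (4 * x.1 0 - 1) (ci x)).2 = 1 :=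
    atz_face hx (fun h1 => by rw [h1]; norm_num) fun h1 => by rw [h1]; norm_num
  have hoth : ∀ i, i ≠ k → (fD B N x).1 i = φ.base r i := fun i hi => by
    rw [(h.oth' hi hx.1).1, fBr_face φ c hface]
    rfl
  refine ⟨hoth, ?_⟩
  rcases le_total (x.1 0) (-1 / 2) with h0 | h0
  · refine ⟨1, ⟨one_pos, le_rfl⟩, ?_⟩
    have hf : (atz 0 (4 * x.1 0 + 3) (ci x)).1 ∈ Cube.boundary (Fin m) ∨
        (atz 0 (4 * x.1 0 + 3) (ci x)).2 = 1 :=
      atz_face hx (fun h1 => by rw [h1]; norm_num) fun h1 => by rw [h1]; norm_num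
    rw [(h.kL' hx.1 h0).1, fBr_face φ b hf, mid_one]
    rfl
  rcases le_total (x.1 0) (1 / 4) with h1 | h1
  · exact h.kM' hjk hx.1 h0 h1
  · refine ⟨2 * s, ⟨by linarith, by linarith⟩, ?_⟩
    rw [(h.kR' hx.1 h1).1, hoth j hjk.ne, ← h.mid_two hjk,
      show lv θ (atz 0 (4 * x.1 0 - 1) (ci x)) = φ.e0 from lv_face θ hface]

/-- **The end data have ordered faces.** -/
theorem EndHyp.sph (h : EndHyp φ b c θ j k s w₀ B N) (hjk : Nb j k) :
    Sph PC (QC φ) (KC φ) (fD (m := m) B N) where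
  cont := h.cont
  mem _ hx := h.pc hx
  rim _ hx := h.qc (Or.inr hx)
  face _ hx := kc_of_out φ hjk (h.outJ hjk hx) (h.qc (Or.inl hx))

end End

end Vale.Agent.P268.T.R996
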