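import Vale.Agent.P268.T.R996.End
import Vale.Agent.P268.T.H839.Adir
import Vale.Agent.P268.T.H277.Facts
import Vale.Agent.P268.T.Blocks

/-!
# The end of the slide

`endHyp_c4` : the data `c4`, `n4` of `H277/Data` (after the splitting at `j`, backwards), for the
start data `stB`, `stN` of two braids `b`, `c`, satisfy `EndHyp`.
`end_veq` : they are equivalent to a braid whose classes are those of the slide.
-/

set_option linter.unusedSectionVars false

namespace Vale.Agent.P268.T.R996

open Set Topology Metric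
open scoped unitInterval Topology.Homotopy RealInnerProductSpace
open Vale.Agent.P268.H288 Vale.Agent.P268.T.A109
open Vale.Agent.P268.T.H839 (sg sg_ne sg_pos am Nb stB stN stV stA cubeAt clI)
open Vale.Agent.P268.T.H277 (SG c4 n4 nk2 Glet sc)

theorem rfl'_unit {V : Type*} [NormedAddCommGroup V] [InnerProductSpace ℝ V] (w y : V) :
    rfl' (‖w‖⁻¹ • w) y = rf w y := by
  unfold rfl' rf
  by_cases hw : w = 0
  · subst hw
    simp
  have h1 : ‖w‖ ≠ 0 := norm_ne_zero_iff.mpr hw
  rw [inner_smul_right, smul_smul, real_inner_self_eq_norm_sq]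
  congr 2
  field_simp

variable {d r : ℕ} {b c : (frk d).BrL (Fin (d + 2)) r} {θ : (frk d).PiL (Fin (d + 2))}
  {j k : Fin r} {ρ : ℝ} {e2 : Vk d} {L s : ℝ}

/-- The point of the window. -/
theorem ofW_win {x : Pk d} (hx : ‖x‖ ≤ 1) (h0 : x 0 ≤ 0) :
    H277.ofW (H277.win 0 (H277.toW x)) = Function.update x 0 (max (-1) (2 * x 0)) := by
  have h1 : ∀ l, |x l| ≤ 1 := fun l => (norm_le_pi_norm x l).trans hx
  funext l
  rcases Fin.eq_castSucc_or_eq_last l with ⟨l', rfl⟩ | rfl
  · rw [H277.ofW_castSucc]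
    by_cases hl : l' = 0
    · subst hl
      have h00 : ((0 : Fin (d + 1 + 1)).castSucc : Fin (d + 1 + 1 + 1)) = 0 := rfl
      rw [h00, Function.update_self]
      have h2 : (H277.win 0 (H277.toW x)).1 0 = max (-1) (2 * x 0) := by
        change Function.update (H277.toW x).1 0 (H277.phc 0 ((H277.toW x).1 0)) 0 = _
        rw [Function.update_self, H277.phc_zero]
        rfl
      rw [h2]
      refine H277.cl1_of_mem (abs_le.mpr ⟨le_max_left _ _, max_le (by norm_num) ?_⟩)
      linarith
    · have h2 : l'.castSucc ≠ (0 : Fin (d + 1 + 1 + 1)) := fun h =>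
        hl (Fin.castSucc_injective _ h)
      rw [Function.update_of_ne h2]
      have h3 : (H277.win 0 (H277.toW x)).1 l' = x l'.castSucc := by
        change Function.update _ 0 _ l' = _
        rw [Function.update_of_ne hl]
        rfl
      rw [h3]
      exact H277.cl1_of_mem (h1 _)
  · have h2 : (Fin.last (d + 1 + 1)) ≠ (0 : Fin (d + 1 + 1 + 1)) := (Fin.last_pos).ne'
    rw [H277.ofW_last, Function.update_of_ne h2]
    have h3 : (H277.win 0 (H277.toW x)).2 = (x (Fin.last _) + 1) / 2 := rfl
    rw [h3, show 2 * ((x (Fin.last (d + 1 + 1)) + 1) / 2) - 1 = x (Fin.last _) by ring]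
    exact H277.cl1_of_mem (h1 _)

theorem cubeAt_update (z u : ℝ) (x : Pk d) :
    cubeAt (m := d + 2) z (Function.update x 0 u) = cubeAt (m := d + 2) z x := by
  refine Prod.ext (funext fun l => ?_) ?_
  · change Function.update (cubeM (Function.update x 0 u)).1 0 (clI z) l =
      Function.update (cubeM x).1 0 (clI z) l
    by_cases hl : l = 0
    · subst hl
      rw [Function.update_self, Function.update_self]
    · rw [Function.update_of_ne hl, Function.update_of_ne hl]
      change projIcc 0 1 zero_le_one ((Function.update x 0 u l.castSucc + 1) / 2) = _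
      have h2 : l.castSucc ≠ (0 : Fin (d + 1 + 1 + 1)) := fun h =>
        hl (Fin.castSucc_injective _ h)
      rw [Function.update_of_ne h2]
      rfl
  · change projIcc 0 1 zero_le_one ((Function.update x 0 u (Fin.last (d + 2)) + 1) / 2) = _
    have h2 : (Fin.last (d + 2)) ≠ (0 : Fin (d + 2 + 1)) := (Fin.last_pos).ne'
    rw [Function.update_of_ne h2]
    rfl

/-- The twist letter. -/
theorem nk2_mid {x : Pk d} (hx : ‖x‖ ≤ 1) (h0 : -3 / 8 < x 0) (h1 : x 0 ≤ 0) :
    nk2 (stB (frk d) b c ρ k) (stN (frk d) b c k) (stV d r ρ) (some j) (some k) x =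
      rf ((lv b (atz 0 (8 * x 0 + 3) (cubeM x))).1.1 k - (frk d).base r j) (frk d).h := by
  unfold nk2
  rw [if_neg (not_le.mpr h0)]
  have e1 : Glet (stB (frk d) b c ρ k) (stV d r ρ) (some j) (some k) x =
      ‖(lv b (atz 0 (8 * x 0 + 3) (cubeM x))).1.1 k - (frk d).base r j‖⁻¹ •
        ((lv b (atz 0 (8 * x 0 + 3) (cubeM x))).1.1 k - (frk d).base r j) := by
    unfold Glet H277.dirk H277.ckW
    rw [ofW_win hx h1]
    have e2 : stV d r ρ (some k) - (stV d r ρ (some k) - stV d r ρ (some j)) =
        (frk d).base r j := sub_sub_cancel _ _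
    have e3 : stB (frk d) b c ρ k (some k) (Function.update x 0 (max (-1) (2 * x 0))) =
        (lv b (atz 0 (8 * x 0 + 3) (cubeM x))).1.1 k := by
      change (if k = k then (PP.ofGL b (cubeAt (m := d + 2) (4 * (Function.update x 0
        (max (-1) (2 * x 0)) : Pk d) 0 + 3) (Function.update x 0 (max (-1) (2 * x 0))))).1.1 k
        else _) = _
      rw [if_pos rfl, Function.update_self, cubeAt_update]
      rw [show 4 * max (-1) (2 * x 0) + 3 = 8 * x 0 + 3 by
        rw [max_eq_right (by linarith)]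
        ring]
      rfl
    rw [e2, e3]
  rw [e1, rfl'_unit]

/-- **The literal end data of the slide.** -/
theorem endHyp_c4 (hjk : Nb j k)
    (hsg : SG (stB (frk d) b c ρ k) (stV d r ρ) none (some j) (some k) e2 L s)
    (hdat : BData (frk d).h
      (c4 (stB (frk d) b c ρ k) (stV d r ρ) none (some j) (some k) (stA θ j k) e2 L s)
      (n4 (stB (frk d) b c ρ k) (stN (frk d) b c k) (stV d r ρ) (some j) (some k))) :
    EndHyp (frk d) b c θ j k s
      ((frk d).base r k + L • e2 - (4 * s) • ((frk d).base r k - (frk d).base r j))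
      (c4 (stB (frk d) b c ρ k) (stV d r ρ) none (some j) (some k) (stA θ j k) e2 L s)
      (n4 (stB (frk d) b c ρ k) (stN (frk d) b c k) (stV d r ρ) (some j) (some k)) := by
  have hs := hsg.hr
  have hs8 := hsg.hr8
  set B := c4 (stB (frk d) b c ρ k) (stV d r ρ) none (some j) (some k) (stA θ j k) e2 L s with hB
  set N := n4 (stB (frk d) b c ρ k) (stN (frk d) b c k) (stV d r ρ) (some j) (some k) with hN
  have Bk : ∀ x, B (some k) x = if x 0 ≤ 0 then
      stB (frk d) b c ρ k (some k) x + sc (x 0) • ((frk d).base r j + (2 * s) •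
        ((frk d).base r k - (frk d).base r j) - (frk d).base r k)
      else stB (frk d) b c ρ k (some j) x + (2 * s) • stA θ j k x := fun x => by
    rw [hB]
    unfold c4
    rw [if_pos rfl]
    rfl
  have Bi : ∀ i, i ≠ k → B (some i) = stB (frk d) b c ρ k (some i) := fun i hi => by
    rw [hB]
    unfold c4
    rw [if_neg (fun h => hi (Option.some_injective _ h)), if_neg (Option.some_ne_none i)]
  have Nk : ∀ x, N (some k) x = if x 0 ≤ 0 then
      nk2 (stB (frk d) b c ρ k) (stN (frk d) b c k) (stV d r ρ) (some j) (some k) x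
      else stN (frk d) b c k (some j) x := fun x => by
    rw [hN]
    unfold n4
    rw [if_pos rfl]
  have Ni : ∀ i, i ≠ k → N (some i) = stN (frk d) b c k (some i) := fun i hi => by
    rw [hN]
    unfold n4
    rw [if_neg (fun h => hi (Option.some_injective _ h))]
  have sBi : ∀ i, i ≠ k → ∀ x, stB (frk d) b c ρ k (some i) x =
      (lv c (atz 0 (4 * x 0 - 1) (cubeM x))).1.1 i := fun i hi x => if_neg hi
  have sNi : ∀ i, i ≠ k → ∀ x, stN (frk d) b c k (some i) x =
      (lv c (atz 0 (4 * x 0 - 1) (cubeM x))).2 i := fun i hi x => if_neg hi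
  have sBk : ∀ x, stB (frk d) b c ρ k (some k) x =
      (lv b (atz 0 (4 * x 0 + 3) (cubeM x))).1.1 k := fun x => if_pos rfl
  have sNk : ∀ x, stN (frk d) b c k (some k) x =
      (lv b (atz 0 (4 * x 0 + 3) (cubeM x))).2 k := fun x => if_pos rfl
  have hstA : ∀ x, stA θ j k x =
      sg j k • am (frk d) (lv θ (atz 0 (4 * x 0 - 1) (cubeM x))) := fun x => rfl
  have kR : ∀ x : Pk d, ‖x‖ ≤ 1 → 1 / 4 ≤ x 0 →
      B (some k) x = B (some j) x +
        (2 * s) • (sg j k • am (frk d) (lv θ (atz 0 (4 * x 0 - 1) (cubeM x)))) := by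
    intro x _ h0
    rw [Bk, if_neg (by linarith), Bi j hjk.ne, hstA]
  refine ⟨hs, by linarith, hdat, fun x _ => ⟨?_, ?_⟩, fun i hi x _ => ⟨?_, ?_⟩,
    fun x _ h0 => ⟨?_, ?_⟩, fun x _ h0 h1 => ?_, fun x hx h0 h1 => ?_, fun x hx h0 => ?_,
    fun x hx h0 => ⟨kR x hx h0, ?_⟩, fun i hij hik x hx h0 t ht => ?_⟩
  · rw [hB]
    unfold c4
    rw [if_neg (Option.some_ne_none k).symm, if_pos rfl]
    rfl
  · rw [hN]
    unfold n4
    rw [if_neg (Option.some_ne_none k).symm]
    rfl
  · rw [Bi i hi, sBi i hi]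
  · rw [Ni i hi, sNi i hi]
  · rw [Bk, if_pos (by linarith), H277.sc_of_le h0, zero_smul, add_zero, sBk]
  · rw [Nk, if_pos (by linarith)]
    unfold nk2
    rw [if_pos (by linarith), sNk]
  · rw [Bk]
    by_cases h2 : x 0 ≤ 0
    · refine ⟨sc (x 0), H277.sc_mem _, ?_⟩
      rw [if_pos h2, (H839.stB_k_right (frk d) b c ρ k h0).1, H839.nb_sub hjk]
    · refine ⟨1, ⟨zero_le_one, le_rfl⟩, ?_⟩
      rw [if_neg h2, (H839.stB_left (frk d) b c ρ hjk.ne h1).1, H839.stA_left hjk θ h1,
        H839.nb_sub hjk, one_smul]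
      module
  · rw [Nk, if_pos (by linarith)]
    rcases h0.eq_or_lt with h2 | h2
    · unfold nk2
      rw [if_pos h2.ge, (H839.stB_k_right (frk d) b c ρ k (by linarith)).2]
      have h3 : (lv b (atz 0 (8 * x 0 + 3) (cubeM x))) = (frk d).bx r :=
        lv_face b (Or.inl (atz_of_nonpos _ (by linarith) _))
      rw [h3]
      change _ = rf ((frk d).base r k - (frk d).base r j) (frk d).h
      rw [rf_of_inner_eq_zero]
      rw [inner_sub_right, base_h, base_h, sub_self]
    · exact nk2_mid hx h2 (by linarith)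
  · rw [Nk]
    rcases h0 with ⟨h0, h1⟩ | ⟨h0, h1⟩
    · rw [if_pos (by linarith)]
      unfold nk2
      rw [if_pos h1, (H839.stB_k_right (frk d) b c ρ k h0).2]
    · by_cases h2 : x 0 ≤ 0
      · rw [if_pos h2, nk2_mid hx (by linarith) h2]
        have h3 : (lv b (atz 0 (8 * x 0 + 3) (cubeM x))) = (frk d).bx r :=
          lv_face b (Or.inl (atz_of_one_le _ (by linarith) _))
        rw [h3]
        change rf ((frk d).base r k - (frk d).base r j) (frk d).h = _
        rw [rf_of_inner_eq_zero]
        rw [inner_sub_right, base_h, base_h, sub_self]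
      · rw [if_neg h2, (H839.stB_left (frk d) b c ρ hjk.ne h1).2]
  · rw [Nk, if_neg (by linarith), Ni j hjk.ne]
  · rw [Bi i hik, Bi j hjk.ne]
    intro heq
    have h1 := hsg.gap (some i) (some j) (Option.some_ne_none i) (Option.some_ne_none j)
      (fun h => hij (Option.some_injective _ h)) x hx
    rw [heq, add_sub_cancel_left, ← hstA, norm_smul, H839.norm_stA, mul_one, Real.norm_eq_abs,
      abs_of_nonneg ht.1] at h1
    linarith [ht.2]

end Vale.Agent.P268.T.R996
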