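import Vale.Agent.P268.T.R996.Cls

/-!
# Additivity of the class over a wall
-/

set_option linter.unusedSectionVars false

namespace Vale.Agent.P268.T.R996

open Set Topology
open scoped unitInterval Topology.Homotopy
open Vale.Agent.P268.H288 Vale.Agent.P268.T.A109

section Geometry

variable {M : Type*} [Fintype M] [DecidableEq M]

/-- Replacing the coordinate `i`. -/
def upd (i : M) (u : ℝ) (x : (M → ℝ) × ℝ) : (M → ℝ) × ℝ := (Function.update x.1 i u, x.2)

@[simp]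
theorem upd_same (i : M) (u : ℝ) (x : (M → ℝ) × ℝ) : (upd i u x).1 i = u := by
  change Function.update x.1 i u i = u
  rw [Function.update_self]

theorem upd_of_ne {i l : M} (h : l ≠ i) (u : ℝ) (x : (M → ℝ) × ℝ) : (upd i u x).1 l = x.1 l := by
  change Function.update x.1 i u l = x.1 l
  rw [Function.update_of_ne h]

@[simp]
theorem upd_snd (i : M) (u : ℝ) (x : (M → ℝ) × ℝ) : (upd i u x).2 = x.2 := rfl

@[simp]
theorem upd_upd (i : M) (u v : ℝ) (x : (M → ℝ) × ℝ) : upd i u (upd i v x) = upd i u x := by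
  unfold upd
  rw [Function.update_idem]

@[simp]
theorem upd_self (i : M) (x : (M → ℝ) × ℝ) : upd i (x.1 i) x = x := by
  unfold upd
  rw [Function.update_eq_self]

theorem continuous_upd (i : M) : Continuous fun z : ℝ × ((M → ℝ) × ℝ) => upd i z.1 z.2 := by
  unfold upd
  refine Continuous.prodMk ?_ (by fun_prop)
  exact Continuous.update (by fun_prop) i continuous_fst

theorem mem_Qb_iff {x : (M → ℝ) × ℝ} : x ∈ Qb M ↔ (∀ i, |x.1 i| ≤ 1) ∧ 0 ≤ x.2 ∧ x.2 ≤ 1 := by
  change (‖x.1‖ ≤ 1 ∧ 0 ≤ x.2 ∧ x.2 ≤ 1) ↔ _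
  rw [pi_norm_le_iff_of_nonneg zero_le_one]
  rfl

theorem mem_Jb_iff {x : (M → ℝ) × ℝ} :
    x ∈ Jb M ↔ x ∈ Qb M ∧ ((∃ i, |x.1 i| = 1) ∨ x.2 = 1) := by
  constructor
  · rintro ⟨hx, h⟩
    refine ⟨hx, ?_⟩
    rcases h with h | h
    · left
      obtain ⟨i, hi⟩ := exists_norm_eq (y := x.1) (by rw [h]; exact one_pos)
      exact ⟨i, by rw [← Real.norm_eq_abs, hi, h]⟩
    · exact Or.inr h
  · rintro ⟨hx, h⟩
    refine ⟨hx, ?_⟩
    rcases h with ⟨i, hi⟩ | h
    · exact Or.inl (norm_eq_one_of_abs hx.1 hi)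
    · exact Or.inr h

theorem upd_mem {i : M} {u : ℝ} (hu : |u| ≤ 1) {x : (M → ℝ) × ℝ} (hx : x ∈ Qb M) :
    upd i u x ∈ Qb M := by
  rw [mem_Qb_iff] at hx ⊢
  refine ⟨fun l => ?_, hx.2⟩
  by_cases h : l = i
  · subst h
    rwa [upd_same]
  · rw [upd_of_ne h]
    exact hx.1 l

theorem upd_mem_Rb {i : M} {u : ℝ} (hu : |u| ≤ 1) {x : (M → ℝ) × ℝ} (hx : x ∈ Rb M) :
    upd i u x ∈ Rb M := ⟨upd_mem hu hx.1, hx.2⟩

theorem upd_mem_Jb_of_abs {i : M} {u : ℝ} (hu : |u| = 1) {x : (M → ℝ) × ℝ} (hx : x ∈ Qb M) :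
    upd i u x ∈ Jb M :=
  mem_Jb_iff.mpr ⟨upd_mem hu.le hx, Or.inl ⟨i, by rw [upd_same]; exact hu⟩⟩

/-- A map of the coordinate `i` which fixes the ends preserves the faces. -/
theorem upd_mem_Jb {i : M} {u : ℝ} (hu : |u| ≤ 1) {x : (M → ℝ) × ℝ} (hx : x ∈ Jb M)
    (h : |x.1 i| = 1 → |u| = 1) : upd i u x ∈ Jb M := by
  obtain ⟨hxQ, hx⟩ := mem_Jb_iff.mp hx
  refine mem_Jb_iff.mpr ⟨upd_mem hu hxQ, ?_⟩
  rcases hx with ⟨l, hl⟩ | hx
  · left
    by_cases hli : l = i
    · subst hli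
      exact ⟨l, by rw [upd_same]; exact h hl⟩
    · exact ⟨l, by rw [upd_of_ne hli]; exact hl⟩
  · exact Or.inr hx

end Geometry

section Join

variable {M : Type*} [Fintype M] [DecidableEq M] {V : Type*} [NormedAddCommGroup V]
  [NormedSpace ℝ V] {p : V → Prop} {A : Set {v // p v}} {a : {v // p v}} {K : Set V}

/-- Juxtaposition of two maps along the wall `x i = 0`. -/
noncomputable def join (i : M) (f g : (M → ℝ) × ℝ → V) (x : (M → ℝ) × ℝ) : V :=
  if x.1 i ≤ 0 then f (upd i (2 * x.1 i + 1) x) else g (upd i (2 * x.1 i - 1) x)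

theorem abs_left {u : ℝ} (h : |u| ≤ 1) (h0 : u ≤ 0) : |2 * u + 1| ≤ 1 := by
  rw [abs_le] at h ⊢
  constructor <;> linarith

theorem abs_right {u : ℝ} (h : |u| ≤ 1) (h0 : 0 ≤ u) : |2 * u - 1| ≤ 1 := by
  rw [abs_le] at h ⊢
  constructor <;> linarith

/-- Continuity of a juxtaposition, with parameters. -/
theorem continuousOn_join {T : Type*} [TopologicalSpace T] {S : Set T} (i : M)
    {F G : T → (M → ℝ) × ℝ → V}
    (hF : ContinuousOn (fun z : T × ((M → ℝ) × ℝ) => F z.1 z.2) (S ×ˢ Qb M))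
    (hG : ContinuousOn (fun z : T × ((M → ℝ) × ℝ) => G z.1 z.2) (S ×ˢ Qb M))
    (hFG : ∀ t ∈ S, ∀ x ∈ Qb M, x.1 i = 0 → F t (upd i 1 x) = G t (upd i (-1) x)) :
    ContinuousOn (fun z : T × ((M → ℝ) × ℝ) => join i (F z.1) (G z.1) z.2) (S ×ˢ Qb M) := by
  have hc : Continuous fun z : T × ((M → ℝ) × ℝ) => z.2.1 i := by fun_prop
  have hL : IsClosed {z : T × ((M → ℝ) × ℝ) | z.2.1 i ≤ 0} := isClosed_le hc continuous_const
  have hR : IsClosed {z : T × ((M → ℝ) × ℝ) | 0 ≤ z.2.1 i} := isClosed_le continuous_const hc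
  have eqL : ∀ z : T × ((M → ℝ) × ℝ), z.2.1 i ≤ 0 →
      join i (F z.1) (G z.1) z.2 = F z.1 (upd i (2 * z.2.1 i + 1) z.2) := fun z hz => if_pos hz
  have eqR : ∀ z ∈ S ×ˢ Qb M, 0 ≤ z.2.1 i →
      join i (F z.1) (G z.1) z.2 = G z.1 (upd i (2 * z.2.1 i - 1) z.2) := by
    intro z hz h0
    rcases h0.eq_or_lt with h | h
    · have h' : z.2.1 i = 0 := h.symm
      rw [eqL z h'.le, h', mul_zero, zero_add, zero_sub]
      exact hFG z.1 hz.1 z.2 hz.2 h'
    · exact if_neg (not_le.mpr h)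
  have cL : ContinuousOn (fun z : T × ((M → ℝ) × ℝ) => join i (F z.1) (G z.1) z.2)
      ((S ×ˢ Qb M) ∩ {z | z.2.1 i ≤ 0}) := by
    have h1 : ContinuousOn (fun z : T × ((M → ℝ) × ℝ) => F z.1 (upd i (2 * z.2.1 i + 1) z.2))
        ((S ×ˢ Qb M) ∩ {z | z.2.1 i ≤ 0}) := by
      refine hF.comp (f := fun z : T × ((M → ℝ) × ℝ) => (z.1, upd i (2 * z.2.1 i + 1) z.2)) ?_ ?_
      · refine Continuous.continuousOn (continuous_fst.prodMk ?_)
        exact (continuous_upd i).comp (f := fun z : T × ((M → ℝ) × ℝ) => (2 * z.2.1 i + 1, z.2))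
          (by fun_prop)
      · rintro z ⟨hz, hz0⟩
        exact ⟨hz.1, upd_mem (abs_left ((mem_Qb_iff.mp hz.2).1 i) hz0) hz.2⟩
    exact h1.congr fun z hz => eqL z hz.2
  have cR : ContinuousOn (fun z : T × ((M → ℝ) × ℝ) => join i (F z.1) (G z.1) z.2)
      ((S ×ˢ Qb M) ∩ {z | 0 ≤ z.2.1 i}) := by
    have h1 : ContinuousOn (fun z : T × ((M → ℝ) × ℝ) => G z.1 (upd i (2 * z.2.1 i - 1) z.2))
        ((S ×ˢ Qb M) ∩ {z | 0 ≤ z.2.1 i}) := by
      refine hG.comp (f := fun z : T × ((M → ℝ) × ℝ) => (z.1, upd i (2 * z.2.1 i - 1) z.2)) ?_ ?_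
      · refine Continuous.continuousOn (continuous_fst.prodMk ?_)
        exact (continuous_upd i).comp (f := fun z : T × ((M → ℝ) × ℝ) => (2 * z.2.1 i - 1, z.2))
          (by fun_prop)
      · rintro z ⟨hz, hz0⟩
        exact ⟨hz.1, upd_mem (abs_right ((mem_Qb_iff.mp hz.2).1 i) hz0) hz.2⟩
    exact h1.congr fun z hz => eqR z hz.1 hz.2
  intro z hz
  have hz' : (S ×ˢ Qb M) = ((S ×ˢ Qb M) ∩ {z | z.2.1 i ≤ 0}) ∪ ((S ×ˢ Qb M) ∩ {z | 0 ≤ z.2.1 i}) := by
    rw [← inter_union_distrib_left]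
    refine (inter_eq_left.mpr fun w _ => ?_).symm
    exact le_total (w.2.1 i) 0
  rw [hz']
  refine ContinuousWithinAt.union ?_ ?_
  · by_cases h : z.2.1 i ≤ 0
    · exact cL z ⟨hz, h⟩
    · refine ContinuousWithinAt.mono ?_ inter_subset_right
      exact continuousWithinAt_of_notMem_closure (by rwa [hL.closure_eq])
  · by_cases h : 0 ≤ z.2.1 i
    · exact cR z ⟨hz, h⟩
    · refine ContinuousWithinAt.mono ?_ inter_subset_right
      exact continuousWithinAt_of_notMem_closure (by rwa [hR.closure_eq])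

theorem Sph.join {q : V → Prop} (i : M) {f g : (M → ℝ) × ℝ → V} (hf : Sph p q K f)
    (hg : Sph p q K g)
    (hfg : ∀ x ∈ Qb M, x.1 i = 0 → f (upd i 1 x) = g (upd i (-1) x)) :
    Sph p q K (R996.join i f g) where
  cont := by
    have h := continuousOn_join (T := Unit) (S := univ) i (F := fun _ => f) (G := fun _ => g)
      (hf.cont.comp continuousOn_snd fun z hz => hz.2)
      (hg.cont.comp continuousOn_snd fun z hz => hz.2) (fun _ _ => hfg)
    exact h.comp (f := fun x => ((), x)) (by fun_prop) fun x hx => ⟨mem_univ _, hx⟩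
  mem x hx := by
    unfold R996.join
    have h1 := (mem_Qb_iff.mp hx).1 i
    split_ifs with h
    · exact hf.mem _ (upd_mem (abs_left h1 h) hx)
    · exact hg.mem _ (upd_mem (abs_right h1 (not_le.mp h).le) hx)
  rim x hx := by
    unfold R996.join
    have h1 := (mem_Qb_iff.mp hx.1).1 i
    split_ifs with h
    · exact hf.rim _ (upd_mem_Rb (abs_left h1 h) hx)
    · exact hg.rim _ (upd_mem_Rb (abs_right h1 (not_le.mp h).le) hx)
  face x hx := by
    unfold R996.join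
    have h1 := (mem_Qb_iff.mp hx.1).1 i
    split_ifs with h
    · refine hf.face _ (upd_mem_Jb (abs_left h1 h) hx fun h2 => ?_)
      rcases (abs_eq zero_le_one).mp h2 with h3 | h3
      · linarith
      · rw [h3]; norm_num
    · refine hg.face _ (upd_mem_Jb (abs_right h1 (not_le.mp h).le) hx fun h2 => ?_)
      rcases (abs_eq zero_le_one).mp h2 with h3 | h3
      · rw [h3]; norm_num
      · linarith

variable [Nonempty M]

/-- The class of a juxtaposition of based maps. -/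
theorem cl_join (ha : a ∈ A) (i : M) {f g : (M → ℝ) × ℝ → V} (hf : Sph p (qq A) {a.1} f)
    (hg : Sph p (qq A) {a.1} g) : cl ha (join i f g) = cl ha g * cl ha f := by
  have hfg : ∀ x ∈ Qb M, x.1 i = 0 → f (upd i 1 x) = g (upd i (-1) x) := by
    intro x hx _
    rw [hf.face _ (upd_mem_Jb_of_abs (by norm_num) hx),
      hg.face _ (upd_mem_Jb_of_abs (by norm_num) hx)]
  have hj := Sph.join i hf hg hfg
  rw [cl_eq ha hf, cl_eq ha hg, cl_eq ha hj, hcl_mul i]
  congr 1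
  ext y
  refine PP.ext fun t => Subtype.ext ?_
  rw [glOf_apply]
  simp only [GenLoop.transAt, GenLoop.coe_copy]
  have h1 := (y i).2.1
  have h2 := (y i).2.2
  by_cases h : (y i : ℝ) ≤ 1 / 2
  · rw [if_pos h, glOf_apply]
    have h3 : (em (y, t)).1 i ≤ 0 := by
      change 2 * (y i : ℝ) - 1 ≤ 0
      linarith
    rw [join, if_pos h3]
    congr 1
    refine Prod.ext (funext fun l => ?_) rfl
    by_cases hl : l = i
    · subst hl
      rw [upd_same]
      change 2 * (2 * (y l : ℝ) - 1) + 1 = 2 * ((Function.update y l _ l : I) : ℝ) - 1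
      rw [Function.update_self, projIcc_of_mem zero_le_one (x := 2 * (y l : ℝ))
        ⟨by linarith, by linarith⟩]
      ring
    · rw [upd_of_ne hl]
      change 2 * (y l : ℝ) - 1 = 2 * ((Function.update y i _ l : I) : ℝ) - 1
      rw [Function.update_of_ne hl]
  · rw [if_neg h, glOf_apply]
    have h3 : ¬ (em (y, t)).1 i ≤ 0 := by
      change ¬ 2 * (y i : ℝ) - 1 ≤ 0
      linarith
    rw [join, if_neg h3]
    congr 1
    refine Prod.ext (funext fun l => ?_) rfl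
    by_cases hl : l = i
    · subst hl
      rw [upd_same]
      change 2 * (2 * (y l : ℝ) - 1) - 1 = 2 * ((Function.update y l _ l : I) : ℝ) - 1
      rw [Function.update_self, projIcc_of_mem zero_le_one (x := 2 * (y l : ℝ) - 1)
        ⟨by linarith, by linarith⟩]
    · rw [upd_of_ne hl]
      change 2 * (y l : ℝ) - 1 = 2 * ((Function.update y i _ l : I) : ℝ) - 1
      rw [Function.update_of_ne hl]

/-- **Additivity.** -/
theorem clsP_join (ha : a ∈ A) (hK : Fc A a K) (i : M) {f g : (M → ℝ) × ℝ → V}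
    (hf : Sph p (qq A) K f) (hg : Sph p (qq A) K g)
    (hfg : ∀ x ∈ Qb M, x.1 i = 0 → f (upd i 1 x) = g (upd i (-1) x)) :
    clsP ha (join i f g) = clsP ha g * clsP ha f := by
  have hf1 := hK.cap_one hf
  have hg1 := hK.cap_one hg
  have hfg' : ∀ s ∈ Icc (0 : ℝ) 1, ∀ x ∈ Qb M, x.1 i = 0 →
      R996.cap a.1 s f (upd i 1 x) = R996.cap a.1 s g (upd i (-1) x) := by
    intro s hs x hx h0
    rw [cap_face hs.1 (upd_mem_Jb_of_abs (by norm_num) hx),
      cap_face hs.1 (upd_mem_Jb_of_abs (by norm_num) hx), hfg x hx h0]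
  have hFf : ContinuousOn (fun z : ℝ × ((M → ℝ) × ℝ) => R996.cap a.1 z.1 f z.2)
      (Icc 0 1 ×ˢ Qb M) :=
    continuousOn_cap (sg := fun s => s) (F := fun _ => f)
      (hf.cont.comp continuousOn_snd fun z hz => hz.2) continuousOn_id fun t ht => ht.1
  have hFg : ContinuousOn (fun z : ℝ × ((M → ℝ) × ℝ) => R996.cap a.1 z.1 g z.2)
      (Icc 0 1 ×ˢ Qb M) :=
    continuousOn_cap (sg := fun s => s) (F := fun _ => g)
      (hg.cont.comp continuousOn_snd fun z hz => hz.2) continuousOn_id fun t ht => ht.1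
  have h1 := clsP_homotopic ha hK
    (F := fun s => join i (R996.cap a.1 s f) (R996.cap a.1 s g))
    (continuousOn_join i (F := fun s => R996.cap a.1 s f) (G := fun s => R996.cap a.1 s g)
      hFf hFg hfg')
    fun s hs => Sph.join i (hK.cap hf hs) (hK.cap hg hs) (hfg' s hs)
  have h0 : clsP ha (join i (R996.cap a.1 0 f) (R996.cap a.1 0 g)) = clsP ha (join i f g) := by
    refine clsP_congr ha fun x hx => ?_
    have h2 := (mem_Qb_iff.mp hx).1 i
    unfold join
    split_ifs with h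
    · exact cap_zero (upd_mem (abs_left h2 h) hx)
    · exact cap_zero (upd_mem (abs_right h2 (not_le.mp h).le) hx)
  rw [← h0, h1, clsP_eq_cl ha (Sph.join i hf1 hg1 (hfg' 1 (right_mem_Icc.mpr zero_le_one))),
    cl_join ha i hf1 hg1]
  rfl

end Join

end Vale.Agent.P268.T.R996
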