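import Vale.Agent.P268.T.R996.Win
import Vale.Agent.P268.T.NBr

/-!
# Data of the normal form whose faces are ordered configurations

`PC`, `QC`, `KC` : framed configurations, those in the page `H`, and those in `H` which are ordered
in the direction `e` (a convex set).  For `f` with `Sph PC QC KC f`:
`brOf` : the braid of `cap 1 f`; its pair classes and twists are `clsP` of the differences and of
the normals of `f`; `bFam_cap` : the homotopy of data of the normal form from `f` to that braid.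
-/

set_option linter.unusedSectionVars false

namespace Vale.Agent.P268.T.R996

open Set Topology Metric
open scoped unitInterval Topology.Homotopy RealInnerProductSpace
open Vale.Agent.P268.H288 Vale.Agent.P268.T.A109

variable {V : Type*} [NormedAddCommGroup V] [InnerProductSpace ℝ V] (φ : Fr V) {m r : ℕ}

/-- Framed configurations, as elements of a vector space. -/
abbrev FC (V : Type*) (r : ℕ) := (Fin r → V) × (Fin r → V)

/-- Framed configurations. -/
def PC (w : FC V r) : Prop := Function.Injective w.1 ∧ ∀ i, ‖w.2 i‖ = 1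

/-- Framed configurations in the page of the slab. -/
def QC (w : FC V r) : Prop :=
  Function.Injective w.1 ∧ (∀ i, ⟪φ.h, w.1 i⟫ = 0) ∧ ∀ i, w.2 i = φ.h

/-- Ordered framed configurations in the page of the slab. -/
def KC : Set (FC V r) :=
  {w | (∀ i, ⟪φ.h, w.1 i⟫ = 0) ∧ (∀ i l : Fin r, i < l → 0 < ⟪φ.e, w.1 l - w.1 i⟫) ∧
    ∀ i, w.2 i = φ.h}

/-- The base configuration. -/
def bC (r : ℕ) : FC V r := (φ.base r, fun _ => φ.h)

theorem KC_inj {w : FC V r} (hw : w ∈ KC φ) : Function.Injective w.1 := by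
  intro i l h
  by_contra hne
  rcases lt_or_gt_of_ne hne with h1 | h1
  · have := hw.2.1 i l h1
    rw [h, sub_self, inner_zero_right] at this
    exact lt_irrefl _ this
  · have := hw.2.1 l i h1
    rw [h, sub_self, inner_zero_right] at this
    exact lt_irrefl _ this

theorem KC_sub {w : FC V r} (hw : w ∈ KC φ) : QC φ w := ⟨KC_inj φ hw, hw.1, hw.2.2⟩

theorem QC_sub {w : FC V r} (hw : QC φ w) : PC w :=
  ⟨hw.1, fun i => by rw [hw.2.2 i]; exact φ.hh⟩

theorem convex_KC : Convex ℝ (KC φ : Set (FC V r)) := by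
  intro w hw w' hw' a b ha hb hab
  refine ⟨fun i => ?_, fun i l hil => ?_, fun i => ?_⟩
  · change ⟪φ.h, a • w.1 i + b • w'.1 i⟫ = 0
    rw [inner_add_right, inner_smul_right, inner_smul_right, hw.1 i, hw'.1 i]
    ring
  · have h1 := hw.2.1 i l hil
    have h2 := hw'.2.1 i l hil
    change 0 < ⟪φ.e, (a • w.1 l + b • w'.1 l) - (a • w.1 i + b • w'.1 i)⟫
    have e1 : (a • w.1 l + b • w'.1 l) - (a • w.1 i + b • w'.1 i) =
        a • (w.1 l - w.1 i) + b • (w'.1 l - w'.1 i) := by module
    rw [e1, inner_add_right, inner_smul_right, inner_smul_right]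
    rcases ha.eq_or_lt with h | h
    · have hb1 : b = 1 := by linarith
      rw [← h, hb1]
      linarith
    · nlinarith [mul_pos h h1, mul_nonneg hb h2.le]
  · change a • w.2 i + b • w'.2 i = φ.h
    rw [hw.2.2 i, hw'.2.2 i, ← add_smul, hab, one_smul]

theorem bC_mem : bC φ r ∈ KC φ := by
  refine ⟨fun i => ?_, fun i l hil => ?_, fun i => rfl⟩
  · change ⟪φ.h, ((i : ℝ) + 1) • φ.e⟫ = 0
    rw [inner_smul_right, φ.heh, mul_zero]
  · change 0 < ⟪φ.e, ((l : ℝ) + 1) • φ.e - ((i : ℝ) + 1) • φ.e⟫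
    rw [← sub_smul, inner_smul_right, real_inner_self_eq_norm_sq, φ.he]
    have h1 : ((i : ℕ) : ℝ) < ((l : ℕ) : ℝ) := by exact_mod_cast hil
    nlinarith

/-- The braid of a based map. -/
noncomputable def brOf (f : (Fin m → ℝ) × ℝ → FC V r) (hf : Sph PC (QC φ) {bC φ r} f) :
    φ.BrL (Fin m) r :=
  PP.toGL (φ.bx_mem r)
    ⟨fun z => (⟨(f (em z)).1, (hf.mem _ (em_mem z)).1⟩,
      fun i => ⟨(f (em z)).2 i, (hf.mem _ (em_mem z)).2 i⟩), by
      have hc : Continuous fun z => f (em z) := hf.cont.comp_continuous continuous_em em_mem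
      refine Continuous.prodMk (Continuous.subtype_mk (continuous_fst.comp hc) _) ?_
      exact continuous_pi fun i => Continuous.subtype_mk
        ((continuous_apply i).comp (continuous_snd.comp hc)) _⟩
    { rim := fun y => ⟨(hf.rim _ (em_rim y)).2.1,
        fun i => Subtype.ext ((hf.rim _ (em_rim y)).2.2 i)⟩
      top := fun y => by
        have h := mem_singleton_iff.mp (hf.face _ (em_top y))
        refine Prod.ext (Subtype.ext ?_) (funext fun i => Subtype.ext ?_)
        · exact congrArg Prod.fst h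
        · exact congrFun (congrArg Prod.snd h) i
      side := fun y hy t => by
        have h := mem_singleton_iff.mp (hf.face _ (em_side hy t))
        refine Prod.ext (Subtype.ext ?_) (funext fun i => Subtype.ext ?_)
        · exact congrArg Prod.fst h
        · exact congrFun (congrArg Prod.snd h) i }

theorem brOf_cen (f : (Fin m → ℝ) × ℝ → FC V r) (hf : Sph PC (QC φ) {bC φ r} f)
    (y : Fin m → I) (t : I) (i : Fin r) :
    ((brOf φ f hf y).1 t).1.1 i = (f (em (y, t))).1 i := rfl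

theorem brOf_nrm (f : (Fin m → ℝ) × ℝ → FC V r) (hf : Sph PC (QC φ) {bC φ r} f)
    (y : Fin m → I) (t : I) (i : Fin r) :
    (((brOf φ f hf y).1 t).2 i : V) = (f (em (y, t))).2 i := rfl

/-! ### Classes -/

/-- Convex sets of admissible faces of difference maps. -/
def K0 : Set V := {v | ⟪φ.h, v⟫ = 0 ∧ 0 < ⟪φ.e, v⟫}

theorem fc_K0 : Fc φ.A0 φ.e0 (K0 φ) where
  conv := by
    intro v hv w hw a b ha hb hab
    refine ⟨?_, ?_⟩
    · rw [inner_add_right, inner_smul_right, inner_smul_right, hv.1, hw.1]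
      ring
    · rw [inner_add_right, inner_smul_right, inner_smul_right]
      have h1 := hv.2
      have h2 := hw.2
      rcases ha.eq_or_lt with h | h
      · have hb1 : b = 1 := by linarith
        rw [← h, hb1]
        linarith
      · nlinarith [mul_pos h h1, mul_nonneg hb h2.le]
  sub v hv := by
    have h0 : v ≠ 0 := by
      rintro rfl
      have := hv.2
      rw [inner_zero_right] at this
      exact lt_irrefl _ this
    exact ⟨h0, hv.1⟩
  base := by
    refine ⟨φ.heh, ?_⟩
    change 0 < ⟪φ.e, φ.e⟫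
    rw [real_inner_self_eq_norm_sq, φ.he]
    norm_num

theorem fc_h : Fc ({φ.h1} : Set (S1 V)) φ.h1 {(φ.h1 : V)} := Fc.single φ.h1_mem

/-- The normalised difference. -/
noncomputable def difL (i l : Fin r) (w : FC V r) : V := ((l : ℝ) - i)⁻¹ • (w.1 l - w.1 i)

/-- The normal. -/
def nrmL (i : Fin r) (w : FC V r) : V := w.2 i

theorem cap_difL (i l : Fin r) (s : ℝ) (f : (Fin m → ℝ) × ℝ → FC V r) (hil : i < l)
    (x : (Fin m → ℝ) × ℝ) :
    difL i l (cap (bC φ r) s f x) = cap φ.e s (fun x => difL i l (f x)) x := by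
  have hb : difL i l (bC φ r) = φ.e := congrArg Subtype.val (φ.dif_bx hil)
  have h2 : cap φ.e s (fun x => difL i l (f x)) x =
      (1 - capWt s x) • difL i l (f (capArg s x)) + capWt s x • difL i l (bC φ r) := by
    rw [hb]
    rfl
  rw [h2]
  unfold cap difL
  change ((l : ℝ) - i)⁻¹ • (((1 - capWt s x) • (f (capArg s x)).1 l + capWt s x • (bC φ r).1 l) -
    ((1 - capWt s x) • (f (capArg s x)).1 i + capWt s x • (bC φ r).1 i)) = _
  module

theorem cap_nrmL (i : Fin r) (s : ℝ) (f : (Fin m → ℝ) × ℝ → FC V r)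
    (x : (Fin m → ℝ) × ℝ) :
    nrmL i (cap (bC φ r) s f x) = cap φ.h s (fun x => nrmL i (f x)) x := rfl

/-- Difference maps of configurations. -/
theorem sph_difL {K : Set (FC V r)} {f : (Fin m → ℝ) × ℝ → FC V r} (hf : Sph PC (QC φ) K f)
    {i l : Fin r} (hil : i < l) {K' : Set V} (hK : ∀ w ∈ K, difL i l w ∈ K') :
    Sph (fun v : V => v ≠ 0) (qq φ.A0) K' (fun x => difL i l (f x)) := by
  have hne : ∀ w : FC V r, Function.Injective w.1 → difL i l w ≠ 0 := fun w hw =>
    smul_ne_zero (inv_ne_zero (Fr.cast_sub_ne hil)) (sub_ne_zero.mpr fun h => hil.ne' (hw h))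
  refine ⟨?_, fun x hx => hne _ (hf.mem x hx).1, fun x hx => ?_, fun x hx => hK _ (hf.face x hx)⟩
  · have h1 : Continuous fun w : FC V r => difL i l w := by
      unfold difL
      fun_prop
    exact h1.comp_continuousOn hf.cont
  · have h1 := hf.rim x hx
    refine ⟨hne _ h1.1, ?_⟩
    change ⟪φ.h, ((l : ℝ) - i)⁻¹ • ((f x).1 l - (f x).1 i)⟫ = 0
    rw [inner_smul_right, inner_sub_right, h1.2.1, h1.2.1, sub_self, mul_zero]

theorem difL_mem_K0 {i l : Fin r} (hil : i < l) {w : FC V r} (hw : w ∈ KC φ) :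
    difL i l w ∈ K0 φ := by
  refine ⟨?_, ?_⟩
  · change ⟪φ.h, ((l : ℝ) - i)⁻¹ • (w.1 l - w.1 i)⟫ = 0
    rw [inner_smul_right, inner_sub_right, hw.1, hw.1, sub_self, mul_zero]
  · change 0 < ⟪φ.e, ((l : ℝ) - i)⁻¹ • (w.1 l - w.1 i)⟫
    rw [inner_smul_right]
    have h1 : ((i : ℕ) : ℝ) < ((l : ℕ) : ℝ) := by exact_mod_cast hil
    exact mul_pos (inv_pos.mpr (sub_pos.mpr h1)) (hw.2.1 i l hil)

/-- Normal maps. -/
theorem sph_nrmL {K : Set (FC V r)} {f : (Fin m → ℝ) × ℝ → FC V r} (hf : Sph PC (QC φ) K f)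
    (i : Fin r) (hK : ∀ w ∈ K, w.2 i = φ.h) :
    Sph (fun v : V => ‖v‖ = 1) (qq ({φ.h1} : Set (S1 V))) {(φ.h1 : V)}
      (fun x => nrmL i (f x)) := by
  refine ⟨?_, fun x hx => (hf.mem x hx).2 i, fun x hx => ?_, fun x hx => hK _ (hf.face x hx)⟩
  · have h1 : Continuous fun w : FC V r => nrmL i w := by
      unfold nrmL
      fun_prop
    exact h1.comp_continuousOn hf.cont
  · have h1 := (hf.rim x hx).2.2 i
    refine ⟨?_, ?_⟩
    · change ‖(f x).2 i‖ = 1
      rw [h1]
      exact φ.hh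
    · exact Subtype.ext h1

section Group

variable [NeZero m]

theorem clsH_brOf (f : (Fin m → ℝ) × ℝ → FC V r) (hf : Sph PC (QC φ) {bC φ r} f)
    {i l : Fin r} (hil : i < l) :
    φ.clsH (Fin m) hil (hcl (brOf φ f hf)) = cl φ.e0_mem (fun x => difL i l (f x)) := by
  have h1 : Sph (fun v : V => v ≠ 0) (qq φ.A0) {(φ.e0 : V)} (fun x => difL i l (f x)) :=
    sph_difL φ hf hil fun w hw => by
      rw [mem_singleton_iff.mp hw]
      exact congrArg Subtype.val (φ.dif_bx hil)
  rw [cl_eq φ.e0_mem h1]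
  rfl

theorem twH_brOf (f : (Fin m → ℝ) × ℝ → FC V r) (hf : Sph PC (QC φ) {bC φ r} f) (i : Fin r) :
    φ.twH (Fin m) i (hcl (brOf φ f hf)) = cl φ.h1_mem (fun x => nrmL i (f x)) := by
  have h1 : Sph (fun v : V => ‖v‖ = 1) (qq ({φ.h1} : Set (S1 V))) {(φ.h1 : V)}
      (fun x => nrmL i (f x)) := sph_nrmL φ hf i fun w hw => by
    rw [mem_singleton_iff.mp hw]
    rfl
  rw [cl_eq φ.h1_mem h1]
  rfl

variable {f : (Fin m → ℝ) × ℝ → FC V r}

theorem sph_cap_one (hf : Sph PC (QC φ) (KC φ) f) : Sph PC (QC φ) {bC φ r} (cap (bC φ r) 1 f) :=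
  hf.cap_one (convex_KC φ) (fun _ h => QC_sub φ h) (fun _ h => KC_sub φ h) (bC_mem φ)

/-- The braid of data with ordered faces. -/
noncomputable def brK (f : (Fin m → ℝ) × ℝ → FC V r) (hf : Sph PC (QC φ) (KC φ) f) :
    φ.BrL (Fin m) r := brOf φ (cap (bC φ r) 1 f) (sph_cap_one φ hf)

/-- **Pair classes of the normalised data.** -/
theorem clsH_brK (hf : Sph PC (QC φ) (KC φ) f) {i l : Fin r} (hil : i < l) :
    φ.clsH (Fin m) hil (hcl (brK φ f hf)) = clsP φ.e0_mem (fun x => difL i l (f x)) := by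
  rw [brK, clsH_brOf, clsP]
  exact cl_congr _ fun x _ => cap_difL φ i l 1 f hil x

/-- **Twists of the normalised data.** -/
theorem twH_brK (hf : Sph PC (QC φ) (KC φ) f) (i : Fin r) :
    φ.twH (Fin m) i (hcl (brK φ f hf)) = clsP φ.h1_mem (fun x => nrmL i (f x)) := by
  rw [brK, twH_brOf, clsP]
  rfl

end Group

/-! ### The homotopy of data -/

theorem continuous_em' : Continuous (em (M := Fin m)) := continuous_em

theorem em_cubeM {x : Fin (m + 1) → ℝ} (hx : ‖x‖ ≤ 1) :
    em (cubeM x) = (fun i => x i.castSucc, (x (Fin.last m) + 1) / 2) := by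
  have h1 : ∀ i, |x i| ≤ 1 := fun i => (norm_le_pi_norm x i).trans hx
  refine Prod.ext (funext fun i => ?_) ?_
  · change 2 * ((projIcc (0 : ℝ) 1 zero_le_one ((x i.castSucc + 1) / 2) : I) : ℝ) - 1 = _
    have h2 := abs_le.mp (h1 i.castSucc)
    rw [projIcc_of_mem zero_le_one ⟨by linarith, by linarith⟩]
    change 2 * ((x i.castSucc + 1) / 2) - 1 = x i.castSucc
    ring
  · change ((projIcc (0 : ℝ) 1 zero_le_one ((x (Fin.last m) + 1) / 2) : I) : ℝ) = _
    have h2 := abs_le.mp (h1 (Fin.last m))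
    rw [projIcc_of_mem zero_le_one ⟨by linarith, by linarith⟩]

theorem em_cubeM_boundary {x : Fin (m + 1) → ℝ} (hx : ‖x‖ = 1) :
    em (cubeM x) ∈ Jb (Fin m) ∨ em (cubeM x) ∈ Rb (Fin m) := by
  rcases cubeM_boundary hx with h | h | h
  · exact Or.inl (em_side h _)
  · left
    have := em_top (cubeM x).1
    rwa [← h] at this
  · right
    have := em_rim (cubeM x).1
    rwa [← h] at this

/-- The sheets of a map `f`, with a constant sheet `none` at `w₀`. -/
noncomputable def shW (f : (Fin m → ℝ) × ℝ → FC V r) (w₀ : V) :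
    Option (Fin r) → (Fin (m + 1) → ℝ) → V
  | none, _ => w₀
  | some i, x => (f (em (cubeM x))).1 i

/-- The normals of a map `f`. -/
noncomputable def nuW (f : (Fin m → ℝ) × ℝ → FC V r) : Option (Fin r) → (Fin (m + 1) → ℝ) → V
  | none, _ => φ.h
  | some i, x => (f (em (cubeM x))).2 i

/-- A homotopy of maps gives a family of data. -/
theorem bFam_shW {s : Set ℝ} {F : ℝ → (Fin m → ℝ) × ℝ → FC V r} {w : ℝ → V}
    (hF : ContinuousOn (fun z : ℝ × ((Fin m → ℝ) × ℝ) => F z.1 z.2) (s ×ˢ Qb (Fin m)))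
    (hS : ∀ t ∈ s, ∀ x ∈ Qb (Fin m), PC (F t x))
    (hB : ∀ t ∈ s, ∀ x ∈ Jb (Fin m) ∪ Rb (Fin m), QC φ (F t x)) (hw : ContinuousOn w s)
    (hwh : ∀ t ∈ s, ⟪φ.h, w t⟫ = 0) (hne : ∀ t ∈ s, ∀ x ∈ Qb (Fin m), ∀ i, w t ≠ (F t x).1 i) :
    BFam s φ.h (fun t => shW (F t) (w t)) (fun t => nuW φ (F t)) where
  cb a := by
    cases a with
    | none => exact hw.comp continuousOn_fst fun z hz => hz.1
    | some i =>
      have h1 : ContinuousOn (fun q : ℝ × (Fin (m + 1) → ℝ) => F q.1 (em (cubeM q.2)))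
          (s ×ˢ closedBall 0 1) :=
        hF.comp (f := fun q : ℝ × (Fin (m + 1) → ℝ) => (q.1, em (cubeM q.2)))
          (continuous_fst.prodMk (continuous_em.comp (continuous_cubeM.comp
            continuous_snd))).continuousOn fun q hq => ⟨hq.1, em_mem _⟩
      exact ((continuous_apply i).comp continuous_fst).comp_continuousOn h1
  cn a := by
    cases a with
    | none => exact continuousOn_const
    | some i =>
      have h1 : ContinuousOn (fun q : ℝ × (Fin (m + 1) → ℝ) => F q.1 (em (cubeM q.2)))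
          (s ×ˢ closedBall 0 1) :=
        hF.comp (f := fun q : ℝ × (Fin (m + 1) → ℝ) => (q.1, em (cubeM q.2)))
          (continuous_fst.prodMk (continuous_em.comp (continuous_cubeM.comp
            continuous_snd))).continuousOn fun q hq => ⟨hq.1, em_mem _⟩
      exact ((continuous_apply i).comp continuous_snd).comp_continuousOn h1
  nn t ht a x _ := by
    cases a with
    | none => exact φ.hh
    | some i => exact (hS t ht _ (em_mem (cubeM x))).2 i
  inj t ht x _ := by
    intro a b hab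
    cases a with
    | none =>
      cases b with
      | none => rfl
      | some j => exact absurd hab (hne t ht _ (em_mem (cubeM x)) j)
    | some i =>
      cases b with
      | none => exact absurd hab.symm (hne t ht _ (em_mem (cubeM x)) i)
      | some j => exact congrArg some ((hS t ht _ (em_mem (cubeM x))).1 hab)
  bh t ht a x hx := by
    cases a with
    | none =>
      change ⟪w t, φ.h⟫ = 0
      rw [real_inner_comm]
      exact hwh t ht
    | some i =>
      change ⟪(F t (em (cubeM x))).1 i, φ.h⟫ = 0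
      rw [real_inner_comm]
      exact (hB t ht _ (em_cubeM_boundary hx)).2.1 i
  nh t ht a x hx := by
    cases a with
    | none => rfl
    | some i => exact (hB t ht _ (em_cubeM_boundary hx)).2.2 i

/-- **Normalisation of data with ordered faces.** -/
theorem bFam_cap [NeZero m] {f : (Fin m → ℝ) × ℝ → FC V r} (hf : Sph PC (QC φ) (KC φ) f) {ρ : ℝ}
    (hρ : ∀ x ∈ Qb (Fin m), ∀ i, ‖(f x).1 i‖ < ρ) (hρ' : (r : ℝ) < ρ) :
    BFam (Icc 0 1) φ.h (fun t => shW (cap (bC φ r) t f) (-(ρ • φ.e)))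
      (fun t => nuW φ (cap (bC φ r) t f)) := by
  have h0 : 0 < ρ := (Nat.cast_nonneg r).trans_lt hρ'
  have hc : ∀ t ∈ Icc (0 : ℝ) 1, Sph PC (QC φ) (KC φ) (cap (bC φ r) t f) := fun t ht =>
    hf.cap (convex_KC φ) (fun _ h => QC_sub φ h) (fun _ h => KC_sub φ h) (bC_mem φ) ht
  refine bFam_shW φ ?_ (fun t ht x hx => (hc t ht).mem x hx) ?_ continuousOn_const ?_ ?_
  · exact continuousOn_cap (sg := fun s => s) (F := fun _ => f)
      (hf.cont.comp continuousOn_snd fun z hz => hz.2) continuousOn_id fun t ht => ht.1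
  · intro t ht x hx
    rcases hx with hx | hx
    · exact KC_sub φ ((hc t ht).face x hx)
    · exact (hc t ht).rim x hx
  · intro t _
    rw [inner_neg_right, inner_smul_right, φ.heh, mul_zero, neg_zero]
  · intro t ht x hx i heq
    have h1 : ‖(cap (bC φ r) t f x).1 i‖ < ρ := by
      change ‖(1 - capWt t x) • (f (capArg t x)).1 i + capWt t x • (bC φ r).1 i‖ < ρ
      have w0 := capWt_nonneg t x
      have w1 : capWt t x ≤ 1 := (capWt_le ht.1 hx).trans ht.2
      have n1 := hρ _ (capArg_mem ht.1 hx) i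
      have n2 : ‖(bC φ r).1 i‖ < ρ := by
        change ‖((i : ℝ) + 1) • φ.e‖ < ρ
        rw [norm_smul, φ.he, mul_one, Real.norm_eq_abs, abs_of_nonneg (by positivity)]
        have : ((i : ℕ) : ℝ) + 1 ≤ r := by exact_mod_cast i.2
        linarith
      refine (norm_add_le _ _).trans_lt ?_
      rw [norm_smul, norm_smul, Real.norm_eq_abs, Real.norm_eq_abs, abs_of_nonneg w0,
        abs_of_nonneg (by linarith : 0 ≤ 1 - capWt t x)]
      rcases w0.eq_or_lt with h | h
      · rw [← h]
        linarith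
      · nlinarith [mul_lt_mul_of_pos_left n2 h, mul_le_mul_of_nonneg_left n1.le
          (by linarith : 0 ≤ 1 - capWt t x)]
    rw [← heq, norm_neg, norm_smul, φ.he, mul_one, Real.norm_eq_abs, abs_of_pos h0] at h1
    exact lt_irrefl _ h1

/-- The end of the normalising homotopy is the data of the braid `brK`. -/
theorem shW_brK [NeZero m] {f : (Fin m → ℝ) × ℝ → FC V r} (hf : Sph PC (QC φ) (KC φ) f) (ρ : ℝ) :
    shW (cap (bC φ r) 1 f) (-(ρ • φ.e)) = shB φ (brK φ f hf) ρ ∧
      nuW φ (cap (bC φ r) 1 f) = nuB φ (brK φ f hf) := by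
  constructor
  · funext a x
    cases a <;> rfl
  · funext a x
    cases a <;> rfl

end Vale.Agent.P268.T.R996
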