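import Vale.Agent.P268.T.R996.Norm
import Vale.Agent.P268.T.H839.SlideCls

/-!
# Pair classes and twists through `clsP`

`ci` : the inverse chart `Qb → I^M × I`;  `fL p` : a loop as a map on `Qb`.
`clsP_loop`, `clsU_loop`, `twH_loop`, `clsU_brK`, windows.
-/

set_option linter.unusedSectionVars false

namespace Vale.Agent.P268.T.R996

open Set Topology Metric
open scoped unitInterval Topology.Homotopy RealInnerProductSpace
open Vale.Agent.P268.H288 Vale.Agent.P268.T.A109
open Vale.Agent.P268.T.H839 (sg sg_ne sg_pos am)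

section Chart

variable {M : Type*} [Fintype M] [DecidableEq M]

/-- The inverse chart. -/
noncomputable def ci (x : (M → ℝ) × ℝ) : (M → I) × I :=
  (fun i => projIcc 0 1 zero_le_one ((x.1 i + 1) / 2), projIcc 0 1 zero_le_one x.2)

theorem continuous_ci : Continuous (ci (M := M)) := by
  refine Continuous.prodMk (continuous_pi fun i => ?_) ?_
  · exact continuous_projIcc.comp (by fun_prop)
  · exact continuous_projIcc.comp (by fun_prop)

theorem ci_em (z : (M → I) × I) : ci (em z) = z := by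
  refine Prod.ext (funext fun i => ?_) ?_
  · change projIcc 0 1 zero_le_one ((2 * (z.1 i : ℝ) - 1 + 1) / 2) = z.1 i
    rw [show (2 * (z.1 i : ℝ) - 1 + 1) / 2 = z.1 i by ring, projIcc_val]
  · exact projIcc_val zero_le_one z.2

theorem em_ci {x : (M → ℝ) × ℝ} (hx : x ∈ Qb M) : em (ci x) = x := by
  obtain ⟨h1, h2, h3⟩ := mem_Qb_iff.mp hx
  refine Prod.ext (funext fun i => ?_) ?_
  · change 2 * ((projIcc (0 : ℝ) 1 zero_le_one ((x.1 i + 1) / 2) : I) : ℝ) - 1 = _
    have h4 := abs_le.mp (h1 i)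
    rw [projIcc_of_mem zero_le_one ⟨by linarith, by linarith⟩]
    change 2 * ((x.1 i + 1) / 2) - 1 = x.1 i
    ring
  · change ((projIcc (0 : ℝ) 1 zero_le_one x.2 : I) : ℝ) = _
    rw [projIcc_of_mem zero_le_one ⟨h2, h3⟩]

theorem ci_rim {x : (M → ℝ) × ℝ} (hx : x ∈ Rb M) : (ci x).2 = 0 := by
  change projIcc 0 1 zero_le_one x.2 = 0
  rw [hx.2]
  exact projIcc_left _

theorem ci_face {x : (M → ℝ) × ℝ} (hx : x ∈ Jb M) :
    (ci x).1 ∈ Cube.boundary M ∨ (ci x).2 = 1 := by
  obtain ⟨-, hx⟩ := mem_Jb_iff.mp hx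
  rcases hx with ⟨i, hi⟩ | hx
  · left
    refine ⟨i, ?_⟩
    change projIcc 0 1 zero_le_one ((x.1 i + 1) / 2) = 0 ∨
      projIcc 0 1 zero_le_one ((x.1 i + 1) / 2) = 1
    rcases (abs_eq zero_le_one).mp hi with h | h
    · right
      rw [h, projIcc_of_right_le]
      · rfl
      · norm_num
    · left
      rw [h, projIcc_of_le_left]
      · rfl
      · norm_num
  · right
    change projIcc 0 1 zero_le_one x.2 = 1
    rw [hx]
    exact projIcc_right _

end Chart

section Loops

variable {M : Type*} [Fintype M] [DecidableEq M] {V : Type*} [NormedAddCommGroup V] [NormedSpace ℝ V]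
  {p : V → Prop} {A : Set {v // p v}} {a : {v // p v}}

/-- The value of a loop at a point of the cube. -/
def lv {X : Type*} [TopologicalSpace X] {A : Set X} {a : X} {ha : a ∈ A} (g : RL M ha)
    (q : (M → I) × I) : X := (g q.1).1 q.2

theorem continuous_lv {X : Type*} [TopologicalSpace X] {A : Set X} {a : X} {ha : a ∈ A}
    (g : RL M ha) : Continuous (lv g) := (PP.ofGL g).continuous

theorem lv_rim {X : Type*} [TopologicalSpace X] {A : Set X} {a : X} {ha : a ∈ A} (g : RL M ha)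
    {q : (M → I) × I} (hq : q.2 = 0) : lv g q ∈ A := by
  obtain ⟨y, t⟩ := q
  obtain rfl : t = 0 := hq
  exact (PP.rel_ofGL g).rim y

theorem lv_face {X : Type*} [TopologicalSpace X] {A : Set X} {a : X} {ha : a ∈ A} (g : RL M ha)
    {q : (M → I) × I} (hq : q.1 ∈ Cube.boundary M ∨ q.2 = 1) : lv g q = a := by
  obtain ⟨y, t⟩ := q
  rcases hq with hq | hq
  · exact (PP.rel_ofGL g).side y hq t
  · obtain rfl : t = 1 := hq
    exact (PP.rel_ofGL g).top y

theorem sph_loop {ha : a ∈ A} (g : RL M ha) :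
    Sph p (qq A) {a.1} (fun x => ((lv g (ci x) : {v // p v}) : V)) where
  cont := (continuous_subtype_val.comp ((continuous_lv g).comp continuous_ci)).continuousOn
  mem x _ := (lv g (ci x)).2
  rim x hx := qq_of_mem (lv_rim g (ci_rim hx))
  face x hx := congrArg Subtype.val (lv_face g (ci_face hx))

/-- The class of a loop. -/
theorem clsP_loop {ha : a ∈ A} (g : RL M ha) :
    clsP ha (fun x => ((lv g (ci x) : {v // p v}) : V)) = hcl g := by
  rw [clsP_eq_cl ha (sph_loop g), cl_eq ha (sph_loop g)]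
  congr 1
  ext y
  refine PP.ext fun t => Subtype.ext ?_
  rw [glOf_apply, ci_em]
  rfl

end Loops

/-! ### Pair classes -/

variable {V : Type*} [NormedAddCommGroup V] [InnerProductSpace ℝ V] (φ : Fr V)

section Scale

variable {M : Type*} [Fintype M]

theorem K0_smul {c : ℝ} (hc : 0 < c) {v : V} (hv : v ∈ K0 φ) : c • v ∈ K0 φ := by
  refine ⟨?_, ?_⟩
  · rw [inner_smul_right, hv.1, mul_zero]
  · rw [inner_smul_right]
    exact mul_pos hc hv.2

/-- Multiplication with a positive function. -/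
theorem sph_smul {g : (M → ℝ) × ℝ → V} (hg : Sph (fun v : V => v ≠ 0) (qq φ.A0) (K0 φ) g)
    {ρ : (M → ℝ) × ℝ → ℝ} (hρ : ContinuousOn ρ (Qb M)) (hpos : ∀ x ∈ Qb M, 0 < ρ x) :
    Sph (fun v : V => v ≠ 0) (qq φ.A0) (K0 φ) (fun x => ρ x • g x) where
  cont := hρ.smul hg.cont
  mem x hx := smul_ne_zero (hpos x hx).ne' (hg.mem x hx)
  rim x hx := by
    refine ⟨smul_ne_zero (hpos x hx.1).ne' (hg.mem x hx.1), ?_⟩
    obtain ⟨h1, h2⟩ := hg.rim x hx
    have h3 : ⟪φ.h, g x⟫ = 0 := h2
    change ⟪φ.h, ρ x • g x⟫ = 0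
    rw [inner_smul_right, h3, mul_zero]
  face x hx := K0_smul φ (hpos x hx.1) (hg.face x hx)

theorem clsP_smul {g : (M → ℝ) × ℝ → V} (hg : Sph (fun v : V => v ≠ 0) (qq φ.A0) (K0 φ) g)
    {ρ : (M → ℝ) × ℝ → ℝ} (hρ : ContinuousOn ρ (Qb M)) (hpos : ∀ x ∈ Qb M, 0 < ρ x) :
    clsP φ.e0_mem (fun x => ρ x • g x) = clsP φ.e0_mem g := by
  have hc : ∀ s ∈ Icc (0 : ℝ) 1, ∀ x ∈ Qb M, 0 < (1 - s) * ρ x + s := by
    intro s hs x hx
    have h1 := hpos x hx
    rcases hs.1.eq_or_lt with h | h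
    · rw [← h]
      simpa using h1
    · nlinarith [mul_nonneg (by linarith [hs.2] : 0 ≤ 1 - s) h1.le]
  have h := clsP_homotopic φ.e0_mem (fc_K0 φ) (F := fun s x => ((1 - s) * ρ x + s) • g x) ?_ ?_
  · have e0 : clsP φ.e0_mem (fun x => ρ x • g x) =
        clsP φ.e0_mem (fun x => ((1 - (0 : ℝ)) * ρ x + 0) • g x) :=
      clsP_congr _ fun x _ => by rw [sub_zero, one_mul, add_zero]
    have e1 : clsP φ.e0_mem g = clsP φ.e0_mem (fun x => ((1 - (1 : ℝ)) * ρ x + 1) • g x) :=
      clsP_congr _ fun x _ => by rw [sub_self, zero_mul, zero_add, one_smul]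
    rw [e0, e1]
    exact h
  · have h1 : ContinuousOn (fun z : ℝ × ((M → ℝ) × ℝ) => ρ z.2) (Icc 0 1 ×ˢ Qb M) :=
      hρ.comp continuousOn_snd fun z hz => hz.2
    have h2 : ContinuousOn (fun z : ℝ × ((M → ℝ) × ℝ) => g z.2) (Icc 0 1 ×ˢ Qb M) :=
      hg.cont.comp continuousOn_snd fun z hz => hz.2
    exact (((continuousOn_const.sub continuousOn_fst).mul h1).add continuousOn_fst).smul h2
  · intro s hs
    exact sph_smul φ hg ((continuousOn_const.mul hρ).add continuousOn_const) (hc s hs)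

end Scale

variable {m r : ℕ}

/-- The signed difference of two strands. -/
def dU (i l : Fin r) (w : FC V r) : V := sg i l • (w.1 l - w.1 i)

theorem dU_ne {i l : Fin r} (h : i ≠ l) {w : FC V r} (hw : Function.Injective w.1) :
    dU i l w ≠ 0 :=
  smul_ne_zero (sg_ne i l) (sub_ne_zero.mpr fun h' => h (hw h').symm)

theorem dU_mem_K0 {i l : Fin r} (h : i ≠ l) {w : FC V r} (hw : w ∈ KC φ) : dU i l w ∈ K0 φ := by
  refine ⟨?_, ?_⟩
  · unfold dU
    rw [inner_smul_right, inner_sub_right, hw.1, hw.1, sub_self, mul_zero]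
  · unfold dU
    rw [inner_smul_right]
    rcases lt_or_gt_of_ne h with h1 | h1
    · have h2 : sg i l = 1 := if_pos h1
      rw [h2, one_mul]
      exact hw.2.1 i l h1
    · have h2 : sg i l = -1 := if_neg h1.asymm
      rw [h2]
      have h3 := hw.2.1 l i h1
      rw [← neg_sub, inner_neg_right] at h3
      linarith

theorem continuous_dU (i l : Fin r) : Continuous (dU i l : FC V r → V) := by
  unfold dU
  fun_prop

/-- The signed difference map of data. -/
theorem sph_dU {f : (Fin m → ℝ) × ℝ → FC V r} (hf : Sph PC (QC φ) (KC φ) f) {i l : Fin r}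
    (h : i ≠ l) : Sph (fun v : V => v ≠ 0) (qq φ.A0) (K0 φ) (fun x => dU i l (f x)) where
  cont := (continuous_dU i l).comp_continuousOn hf.cont
  mem x hx := dU_ne h (hf.mem x hx).1
  rim x hx := by
    have h1 := hf.rim x hx
    refine ⟨dU_ne h h1.1, ?_⟩
    change ⟪φ.h, sg i l • ((f x).1 l - (f x).1 i)⟫ = 0
    rw [inner_smul_right, inner_sub_right, h1.2.1, h1.2.1, sub_self, mul_zero]
  face x hx := dU_mem_K0 φ h (hf.face x hx)

theorem difL_eq {i l : Fin r} (w : FC V r) (h : i < l) :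
    difL i l w = ((l : ℝ) - i)⁻¹ • dU i l w := by
  have h2 : sg i l = 1 := if_pos h
  unfold difL dU
  rw [h2, one_smul]

theorem dU_comm {i l : Fin r} (h : i ≠ l) (w : FC V r) : dU i l w = dU l i w := by
  unfold dU
  rcases lt_or_gt_of_ne h with h1 | h1
  · have h2 : sg i l = 1 := if_pos h1
    have h3 : sg l i = -1 := if_neg h1.asymm
    rw [h2, h3]
    module
  · have h2 : sg i l = -1 := if_neg h1.asymm
    have h3 : sg l i = 1 := if_pos h1
    rw [h2, h3]
    module

/-- The map of a braid on `Qb`. -/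
noncomputable def fBr (b : φ.BrL (Fin m) r) (q : (Fin m → I) × I) : FC V r :=
  ((lv b q).1.1, fun i => ((lv b q).2 i : V))

theorem continuous_fBr (b : φ.BrL (Fin m) r) : Continuous (fBr φ b) := by
  have h := continuous_lv b
  refine Continuous.prodMk ?_ ?_
  · exact continuous_subtype_val.comp (continuous_fst.comp h)
  · exact continuous_pi fun i =>
      continuous_subtype_val.comp ((continuous_apply i).comp (continuous_snd.comp h))

theorem fBr_PC (b : φ.BrL (Fin m) r) (q : (Fin m → I) × I) : PC (fBr φ b q) :=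
  ⟨(lv b q).1.2, fun i => ((lv b q).2 i).2⟩

theorem fBr_rim (b : φ.BrL (Fin m) r) {q : (Fin m → I) × I} (hq : q.2 = 0) :
    QC φ (fBr φ b q) :=
  ⟨(lv b q).1.2, (lv_rim b hq).1, fun i => congrArg Subtype.val ((lv_rim b hq).2 i)⟩

theorem fBr_face (b : φ.BrL (Fin m) r) {q : (Fin m → I) × I}
    (hq : q.1 ∈ Cube.boundary (Fin m) ∨ q.2 = 1) : fBr φ b q = bC φ r := by
  have h := lv_face b hq
  unfold fBr
  rw [h]
  rfl

theorem sph_fBr (b : φ.BrL (Fin m) r) : Sph PC (QC φ) {bC φ r} (fun x => fBr φ b (ci x)) where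
  cont := ((continuous_fBr φ b).comp continuous_ci).continuousOn
  mem x _ := fBr_PC φ b _
  rim x hx := fBr_rim φ b (ci_rim hx)
  face x hx := fBr_face φ b (ci_face hx)

theorem sph_fBr' (b : φ.BrL (Fin m) r) : Sph PC (QC φ) (KC φ) (fun x => fBr φ b (ci x)) where
  cont := (sph_fBr φ b).cont
  mem := (sph_fBr φ b).mem
  rim := (sph_fBr φ b).rim
  face x hx := by
    rw [mem_singleton_iff.mp ((sph_fBr φ b).face x hx)]
    exact bC_mem φ

section Group

variable [NeZero m]

/-- **Pair classes of a braid.** -/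
theorem clsU_loop (b : φ.BrL (Fin m) r) {i l : Fin r} (h : i ≠ l) :
    φ.clsU (Fin m) i l (hcl b) = clsP φ.e0_mem (fun x => dU i l (fBr φ b (ci x))) := by
  have key : ∀ {i l : Fin r}, i < l → φ.clsU (Fin m) i l (hcl b) =
      clsP φ.e0_mem (fun x => dU i l (fBr φ b (ci x))) := by
    intro i l hil
    have h1 : φ.clsH (Fin m) hil (hcl b) =
        hcl (rlMap (Fr.dif hil) (φ.dif_mem hil) (φ.dif_bx hil) (φ.bx_mem r) φ.e0_mem b) := rfl
    rw [φ.clsU_of_lt hil, h1, ← clsP_loop]
    have h2 : ((i : ℕ) : ℝ) < ((l : ℕ) : ℝ) := by exact_mod_cast hil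
    refine Eq.trans ?_ (clsP_smul φ (sph_dU φ (sph_fBr' φ b) hil.ne)
      (ρ := fun _ => ((l : ℝ) - i)⁻¹) continuousOn_const
      fun _ _ => inv_pos.mpr (sub_pos.mpr h2))
    exact clsP_congr _ fun x _ => difL_eq (fBr φ b (ci x)) hil
  rcases lt_or_gt_of_ne h with h1 | h1
  · exact key h1
  · rw [φ.clsU_comm, key h1]
    exact clsP_congr _ fun x _ => (dU_comm h _).symm

/-- **Twists of a braid.** -/
theorem twH_loop (b : φ.BrL (Fin m) r) (i : Fin r) :
    φ.twH (Fin m) i (hcl b) = clsP φ.h1_mem (fun x => nrmL i (fBr φ b (ci x))) := by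
  have h1 : φ.twH (Fin m) i (hcl b) =
      hcl (rlMap (Fr.nrm i) (φ.nrm_mem i) (φ.nrm_bx i) (φ.bx_mem r) φ.h1_mem b) := rfl
  rw [h1, ← clsP_loop]
  rfl

/-- **Pair classes of normalised data.** -/
theorem clsU_brK {f : (Fin m → ℝ) × ℝ → FC V r} (hf : Sph PC (QC φ) (KC φ) f) {i l : Fin r}
    (h : i ≠ l) :
    φ.clsU (Fin m) i l (hcl (brK φ f hf)) = clsP φ.e0_mem (fun x => dU i l (f x)) := by
  have key : ∀ {i l : Fin r}, i < l → φ.clsU (Fin m) i l (hcl (brK φ f hf)) =
      clsP φ.e0_mem (fun x => dU i l (f x)) := by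
    intro i l hil
    rw [φ.clsU_of_lt hil, clsH_brK]
    have h2 : ((i : ℕ) : ℝ) < ((l : ℕ) : ℝ) := by exact_mod_cast hil
    refine Eq.trans ?_ (clsP_smul φ (sph_dU φ hf hil.ne)
      (ρ := fun _ => ((l : ℝ) - i)⁻¹) continuousOn_const
      fun _ _ => inv_pos.mpr (sub_pos.mpr h2))
    exact clsP_congr _ fun x _ => difL_eq (f x) hil
  rcases lt_or_gt_of_ne h with h1 | h1
  · exact key h1
  · rw [φ.clsU_comm, key h1]
    exact clsP_congr _ fun x _ => (dU_comm h _).symm

end Group

/-! ### Windows -/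

/-- The point of the cube with first coordinate `z` (clamped). -/
noncomputable def atz {M : Type*} [DecidableEq M] (i : M) (z : ℝ) (q : (M → I) × I) : (M → I) × I :=
  (Function.update q.1 i (projIcc 0 1 zero_le_one z), q.2)

theorem continuous_atz {M : Type*} [DecidableEq M] (i : M) :
    Continuous fun w : ℝ × ((M → I) × I) => atz i w.1 w.2 := by
  unfold atz
  refine Continuous.prodMk ?_ (by fun_prop)
  exact Continuous.update (by fun_prop) i (continuous_projIcc.comp continuous_fst)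

theorem atz_of_nonpos {M : Type*} [DecidableEq M] (i : M) {z : ℝ} (hz : z ≤ 0)
    (q : (M → I) × I) : (atz i z q).1 ∈ Cube.boundary M := by
  refine ⟨i, Or.inl ?_⟩
  change Function.update q.1 i (projIcc 0 1 zero_le_one z) i = 0
  rw [Function.update_self, projIcc_of_le_left _ hz]
  rfl

theorem atz_of_one_le {M : Type*} [DecidableEq M] (i : M) {z : ℝ} (hz : 1 ≤ z)
    (q : (M → I) × I) : (atz i z q).1 ∈ Cube.boundary M := by
  refine ⟨i, Or.inr ?_⟩
  change Function.update q.1 i (projIcc 0 1 zero_le_one z) i = 1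
  rw [Function.update_self, projIcc_of_right_le _ hz]
  rfl

/-- Restricting a map which over `α ≤ x i ≤ β` is a rescaled map of the cube. -/
theorem atz_win {M : Type*} [Fintype M] [DecidableEq M] (i : M) {α β : ℝ} (h : α < β)
    (x : (M → ℝ) × ℝ) :
    atz i (((win i α β x).1 i - α) / (β - α)) (ci (win i α β x)) = ci x := by
  have hba : (β - α) ≠ 0 := (sub_pos.mpr h).ne'
  rw [win_coord]
  have e1 : (α + (β - α) * ((x.1 i + 1) / 2) - α) / (β - α) = (x.1 i + 1) / 2 := by
    rw [add_sub_cancel_left, mul_div_cancel_left₀ _ hba]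
  rw [e1]
  refine Prod.ext (funext fun l => ?_) ?_
  · by_cases hl : l = i
    · subst hl
      change Function.update _ l _ l = _
      rw [Function.update_self]
      rfl
    · change Function.update _ i _ l = _
      rw [Function.update_of_ne hl]
      change projIcc 0 1 zero_le_one (((win i α β x).1 l + 1) / 2) = _
      rw [win, upd_of_ne hl]
      rfl
  · rfl

end Vale.Agent.P268.T.R996
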