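import Vale.Agent.P268.T.R996.Join

/-!
# Windows: the class of a map which lies in `K` over some walls
-/

set_option linter.unusedSectionVars false

namespace Vale.Agent.P268.T.R996

open Set Topology
open scoped unitInterval Topology.Homotopy
open Vale.Agent.P268.H288 Vale.Agent.P268.T.A109

section Windows

variable {M : Type*} [Fintype M] [DecidableEq M]

/-- The window `α ≤ x i ≤ β`, rescaled. -/
noncomputable def win (i : M) (α β : ℝ) (x : (M → ℝ) × ℝ) : (M → ℝ) × ℝ :=
  upd i (α + (β - α) * ((x.1 i + 1) / 2)) x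

theorem continuous_win (i : M) (α β : ℝ) : Continuous (win i α β) :=
  (continuous_upd i).comp (f := fun x : (M → ℝ) × ℝ => (α + (β - α) * ((x.1 i + 1) / 2), x))
    (by fun_prop)

@[simp]
theorem win_coord (i : M) (α β : ℝ) (x : (M → ℝ) × ℝ) :
    (win i α β x).1 i = α + (β - α) * ((x.1 i + 1) / 2) := upd_same _ _ _

theorem win_coord_mem {i : M} {α β : ℝ} (h : α ≤ β) {x : (M → ℝ) × ℝ} (hx : x ∈ Qb M) :
    α ≤ (win i α β x).1 i ∧ (win i α β x).1 i ≤ β := by
  rw [win_coord]
  have h1 := abs_le.mp ((mem_Qb_iff.mp hx).1 i)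
  constructor
  · nlinarith
  · nlinarith

theorem win_mem {i : M} {α β : ℝ} (hα : -1 ≤ α) (h : α ≤ β) (hβ : β ≤ 1) {x : (M → ℝ) × ℝ}
    (hx : x ∈ Qb M) : win i α β x ∈ Qb M := by
  have h1 := win_coord_mem (i := i) h hx
  rw [win_coord] at h1
  exact upd_mem (abs_le.mpr ⟨hα.trans h1.1, h1.2.trans hβ⟩) hx

theorem win_full (i : M) (x : (M → ℝ) × ℝ) : win i (-1) 1 x = x := by
  unfold win
  rw [show (-1 : ℝ) + (1 - -1) * ((x.1 i + 1) / 2) = x.1 i by ring, upd_self]

theorem win_win (i : M) (α β γ δ : ℝ) (x : (M → ℝ) × ℝ) :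
    win i α β (win i γ δ x) =
      win i (α + (β - α) * ((γ + 1) / 2)) (α + (β - α) * ((δ + 1) / 2)) x := by
  unfold win
  rw [upd_same, upd_upd]
  congr 1
  ring

end Windows

section Wall

variable {M : Type*} [Fintype M] [DecidableEq M] {V : Type*} [NormedAddCommGroup V]
  [NormedSpace ℝ V] {p : V → Prop} {A : Set {v // p v}} {a : {v // p v}} {K : Set V}

/-- `f` takes values in `K` over the wall `x i = c`. -/
def Wall (K : Set V) (i : M) (c : ℝ) (f : (M → ℝ) × ℝ → V) : Prop :=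
  ∀ x ∈ Qb M, x.1 i = c → f x ∈ K

theorem Sph.wall_end {q : V → Prop} {f : (M → ℝ) × ℝ → V} (hf : Sph p q K f) (i : M) {c : ℝ}
    (hc : |c| = 1) : Wall K i c f :=
  fun _ hx h => hf.face _ (mem_Jb_iff.mpr ⟨hx, Or.inl ⟨i, by rw [h]; exact hc⟩⟩)

theorem Sph.win {q : V → Prop} {f : (M → ℝ) × ℝ → V} (hf : Sph p q K f) (i : M) {α β : ℝ}
    (hα : -1 ≤ α) (h : α ≤ β) (hβ : β ≤ 1) (wα : Wall K i α f) (wβ : Wall K i β f) :
    Sph p q K (fun x => f (R996.win i α β x)) where
  cont := hf.cont.comp (continuous_win i α β).continuousOn fun _ hx => win_mem hα h hβ hx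
  mem x hx := hf.mem _ (win_mem hα h hβ hx)
  rim x hx := hf.rim _ ⟨win_mem hα h hβ hx.1, hx.2⟩
  face x hx := by
    obtain ⟨hQ, hx⟩ := mem_Jb_iff.mp hx
    have hw := win_mem (i := i) hα h hβ hQ
    rcases hx with ⟨l, hl⟩ | hx
    · by_cases hli : l = i
      · subst hli
        rcases (abs_eq zero_le_one).mp hl with h1 | h1
        · refine wβ _ hw ?_
          rw [win_coord, h1]
          ring
        · refine wα _ hw ?_
          rw [win_coord, h1]
          ring
      · refine hf.face _ (mem_Jb_iff.mpr ⟨hw, Or.inl ⟨l, ?_⟩⟩)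
        rw [R996.win, upd_of_ne hli]
        exact hl
    · exact hf.face _ (mem_Jb_iff.mpr ⟨hw, Or.inr hx⟩)

/-- The reparametrisation which moves the wall `0` to `c`. -/
noncomputable def phiW (c u : ℝ) : ℝ := (c + 1) * (min u 0 + 1) - 1 + (1 - c) * max u 0

theorem phiW_of_nonpos {c u : ℝ} (h : u ≤ 0) : phiW c u = (c + 1) * (u + 1) - 1 := by
  rw [phiW, min_eq_left h, max_eq_right h]
  ring

theorem phiW_of_nonneg {c u : ℝ} (h : 0 ≤ u) : phiW c u = c + (1 - c) * u := by
  rw [phiW, min_eq_right h, max_eq_left h]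
  ring

theorem continuous_phiW (c : ℝ) : Continuous (phiW c) := by
  unfold phiW
  fun_prop

theorem abs_phiW_le {c u : ℝ} (hc : |c| ≤ 1) (hu : |u| ≤ 1) : |phiW c u| ≤ 1 := by
  rw [abs_le] at hc hu ⊢
  rcases le_total u 0 with h | h
  · rw [phiW_of_nonpos h]
    constructor <;> nlinarith
  · rw [phiW_of_nonneg h]
    constructor <;> nlinarith

theorem phiW_one (c : ℝ) : phiW c 1 = 1 := by
  rw [phiW_of_nonneg zero_le_one]
  ring

theorem phiW_neg_one (c : ℝ) : phiW c (-1) = -1 := by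
  rw [phiW_of_nonpos (by norm_num)]
  ring

/-- Reparametrisation of one coordinate by a function which fixes the ends. -/
theorem clsP_reparam_coord (ha : a ∈ A) (hK : Fc A a K) (i : M) {f : (M → ℝ) × ℝ → V}
    (hf : Sph p (qq A) K f) {g : ℝ → ℝ} (hg : Continuous g) (hg1 : ∀ u, |u| ≤ 1 → |g u| ≤ 1)
    (e1 : g 1 = 1) (e2 : g (-1) = -1) :
    clsP ha f = clsP ha (fun x => f (upd i (g (x.1 i)) x)) := by
  have hb : ∀ s ∈ Icc (0 : ℝ) 1, ∀ u, |u| ≤ 1 → |(1 - s) * u + s * g u| ≤ 1 := by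
    intro s hs u hu
    have h1 := hg1 u hu
    refine (abs_add_le _ _).trans ?_
    rw [abs_mul, abs_mul, abs_of_nonneg hs.1, abs_of_nonneg (by linarith [hs.2] : 0 ≤ 1 - s)]
    nlinarith [hs.1, hs.2]
  have h := clsP_reparam ha hK hf (Φ := fun s x => upd i ((1 - s) * x.1 i + s * g (x.1 i)) x)
    ?_ ?_ ?_ ?_
  · have h0 : clsP ha f = clsP ha (fun x => f (upd i ((1 - (0 : ℝ)) * x.1 i + 0 * g (x.1 i)) x)) :=
      clsP_congr ha fun x _ => by
        rw [sub_zero, one_mul, zero_mul, add_zero, upd_self]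
    have h1 : clsP ha (fun x => f (upd i (g (x.1 i)) x)) =
        clsP ha (fun x => f (upd i ((1 - (1 : ℝ)) * x.1 i + 1 * g (x.1 i)) x)) :=
      clsP_congr ha fun x _ => by
        rw [sub_self, one_mul, zero_mul, zero_add]
    rw [h0, h1]
    exact h
  · refine Continuous.continuousOn ?_
    exact (continuous_upd i).comp
      (f := fun z : ℝ × ((M → ℝ) × ℝ) => ((1 - z.1) * z.2.1 i + z.1 * g (z.2.1 i), z.2))
      (by fun_prop)
  · exact fun s hs x hx => upd_mem (hb s hs _ ((mem_Qb_iff.mp hx).1 i)) hx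
  · intro s hs x hx
    refine upd_mem_Jb (hb s hs _ ((mem_Qb_iff.mp hx.1).1 i)) hx fun h1 => ?_
    rcases (abs_eq zero_le_one).mp h1 with h2 | h2
    · rw [h2, e1, show (1 - s) * 1 + s * 1 = (1 : ℝ) by ring, abs_one]
    · rw [h2, e2, show (1 - s) * -1 + s * -1 = (-1 : ℝ) by ring, abs_neg, abs_one]
  · exact fun s hs x hx => Or.inr (upd_mem_Rb (hb s hs _ ((mem_Qb_iff.mp hx.1).1 i)) hx)

variable [Nonempty M]

/-- Additivity over the wall `x i = c`. -/
theorem clsP_wall (ha : a ∈ A) (hK : Fc A a K) (i : M) {f : (M → ℝ) × ℝ → V}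
    (hf : Sph p (qq A) K f) {c : ℝ} (hc : |c| ≤ 1) (w : Wall K i c f) :
    clsP ha f = clsP ha (fun x => f (win i c 1 x)) * clsP ha (fun x => f (win i (-1) c x)) := by
  have hc' := abs_le.mp hc
  have w1 : Wall K i 1 f := hf.wall_end i (by norm_num)
  have w2 : Wall K i (-1) f := hf.wall_end i (by norm_num)
  have hL := hf.win i le_rfl hc'.1 hc'.2 w2 w
  have hR := hf.win i hc'.1 hc'.2 le_rfl w w1
  rw [clsP_reparam_coord ha hK i hf (continuous_phiW c) (fun u hu => abs_phiW_le hc hu)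
    (phiW_one c) (phiW_neg_one c), ← clsP_join ha hK i hL hR ?_]
  · refine clsP_congr ha fun x hx => ?_
    unfold join
    split_ifs with h
    · simp only [win, upd_same, upd_upd, phiW_of_nonpos h]
      congr 2
      ring
    · simp only [win, upd_same, upd_upd, phiW_of_nonneg (not_le.mp h).le]
      congr 2
      ring
  · intro x _ _
    rw [win, win, upd_same, upd_same, upd_upd, upd_upd]
    congr 2
    ring

/-- Additivity inside a window. -/
theorem clsP_win_split (ha : a ∈ A) (hK : Fc A a K) (i : M) {f : (M → ℝ) × ℝ → V}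
    (hf : Sph p (qq A) K f) {α γ β : ℝ} (hα : -1 ≤ α) (h1 : α ≤ γ) (h2 : γ ≤ β) (h3 : α < β)
    (hβ : β ≤ 1) (wα : Wall K i α f) (wγ : Wall K i γ f) (wβ : Wall K i β f) :
    clsP ha (fun x => f (win i α β x)) =
      clsP ha (fun x => f (win i γ β x)) * clsP ha (fun x => f (win i α γ x)) := by
  have hba : 0 < β - α := sub_pos.mpr h3
  set c : ℝ := 2 * ((γ - α) / (β - α)) - 1 with hc
  have hc0 : α + (β - α) * ((c + 1) / 2) = γ := by
    rw [hc]
    field_simp
    ring
  have hc1 : |c| ≤ 1 := by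
    have e1 : 0 ≤ (γ - α) / (β - α) := div_nonneg (sub_nonneg.mpr h1) hba.le
    have e2 : (γ - α) / (β - α) ≤ 1 := (div_le_one hba).mpr (by linarith)
    rw [abs_le]
    constructor <;> linarith
  have hW := hf.win i hα h3.le hβ wα wβ
  have w : Wall K i c (fun x => f (win i α β x)) := by
    intro x hx hxc
    refine wγ _ (win_mem hα h3.le hβ hx) ?_
    rw [win_coord, hxc, hc0]
  rw [clsP_wall ha hK i hW hc1 w]
  congr 1
  · refine clsP_congr ha fun x _ => ?_
    rw [win_win, hc0]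
    congr 2
    ring
  · refine clsP_congr ha fun x _ => ?_
    rw [win_win, hc0]
    congr 2
    ring

theorem clsP_win_full (ha : a ∈ A) (i : M) (f : (M → ℝ) × ℝ → V) :
    clsP ha (fun x => f (win i (-1) 1 x)) = clsP ha f :=
  clsP_congr ha fun x _ => by rw [win_full]

theorem hcl_const_eq_one (ha : a ∈ A) :
    hcl (GenLoop.const : RL M ha) = (1 : RG M ha) := rfl

/-- The class of a map which lies in `K` over the middle window. -/
theorem clsP_mid (ha : a ∈ A) (hK : Fc A a K) (i : M) {f : (M → ℝ) × ℝ → V}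
    (hf : Sph p (qq A) K f) {c d : ℝ} (hc : -1 < c) (hcd : c ≤ d) (hd : d < 1)
    (w : ∀ x ∈ Qb M, c ≤ x.1 i → x.1 i ≤ d → f x ∈ K) :
    clsP ha f = clsP ha (fun x => f (win i d 1 x)) * clsP ha (fun x => f (win i (-1) c x)) := by
  have wc : Wall K i c f := fun x hx h => w x hx h.ge (h.le.trans hcd)
  have wd : Wall K i d f := fun x hx h => w x hx (hcd.trans h.ge) h.le
  have w1 : Wall K i 1 f := hf.wall_end i (by norm_num)
  have w2 : Wall K i (-1) f := hf.wall_end i (by norm_num)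
  rw [← clsP_win_full ha i f,
    clsP_win_split ha hK i hf le_rfl (hc.le.trans hcd) hd.le (by norm_num) le_rfl w2 wd w1,
    clsP_win_split ha hK i hf le_rfl hc.le hcd (hc.trans_le hcd) hd.le w2 wc wd]
  congr 1
  have h1 : clsP ha (fun x => f (win i c d x)) = 1 := by
    refine clsP_of_mem ha hK ?_ ?_
    · exact hf.cont.comp (continuous_win i c d).continuousOn
        fun x hx => win_mem hc.le hcd hd.le hx
    · intro x hx
      have h2 := win_coord_mem (i := i) hcd hx
      exact w _ (win_mem hc.le hcd hd.le hx) h2.1 h2.2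
  rw [h1, one_mul]

end Wall

end Vale.Agent.P268.T.R996
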