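import Vale.Agent.P268.T.R996.Pair

/-!
# Maps with one, two or three active windows
-/

set_option linter.unusedSectionVars false

namespace Vale.Agent.P268.T.R996

open Set Topology
open scoped unitInterval Topology.Homotopy
open Vale.Agent.P268.H288 Vale.Agent.P268.T.A109

variable {M : Type*} [Fintype M] [DecidableEq M] {V : Type*} [NormedAddCommGroup V]
  [NormedSpace ℝ V] {p : V → Prop} {A : Set {v // p v}} {a : {v // p v}} {K : Set V} [Nonempty M]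

/-- A window over which the map lies in `K` has trivial class. -/
theorem clsP_win_one (ha : a ∈ A) (hK : Fc A a K) (i : M) {f : (M → ℝ) × ℝ → V}
    (hf : Sph p (qq A) K f) {α β : ℝ} (hα : -1 ≤ α) (h : α ≤ β) (hβ : β ≤ 1)
    (w : ∀ x ∈ Qb M, α ≤ x.1 i → x.1 i ≤ β → f x ∈ K) :
    clsP ha (fun x => f (win i α β x)) = 1 := by
  refine clsP_of_mem ha hK ?_ ?_
  · exact hf.cont.comp (continuous_win i α β).continuousOn
      fun x hx => win_mem hα h hβ hx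
  · intro x hx
    have h2 := win_coord_mem (i := i) h hx
    exact w _ (win_mem hα h hβ hx) h2.1 h2.2

/-- Removing an inactive piece on the left of a window. -/
theorem clsP_win_left (ha : a ∈ A) (hK : Fc A a K) (i : M) {f : (M → ℝ) × ℝ → V}
    (hf : Sph p (qq A) K f) {α γ β : ℝ} (hα : -1 ≤ α) (h1 : α ≤ γ) (h2 : γ ≤ β) (h3 : α < β)
    (hβ : β ≤ 1) (w : ∀ x ∈ Qb M, α ≤ x.1 i → x.1 i ≤ γ → f x ∈ K) (wβ : Wall K i β f) :
    clsP ha (fun x => f (win i α β x)) = clsP ha (fun x => f (win i γ β x)) := by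
  rw [clsP_win_split ha hK i hf hα h1 h2 h3 hβ (fun x hx h => w x hx h.ge (h.le.trans h1))
    (fun x hx h => w x hx (h1.trans h.ge) h.le) wβ,
    clsP_win_one ha hK i hf hα h1 (h2.trans hβ) w, mul_one]

/-- Removing an inactive piece on the right of a window. -/
theorem clsP_win_right (ha : a ∈ A) (hK : Fc A a K) (i : M) {f : (M → ℝ) × ℝ → V}
    (hf : Sph p (qq A) K f) {α γ β : ℝ} (hα : -1 ≤ α) (h1 : α ≤ γ) (h2 : γ ≤ β) (h3 : α < β)
    (hβ : β ≤ 1) (wα : Wall K i α f) (w : ∀ x ∈ Qb M, γ ≤ x.1 i → x.1 i ≤ β → f x ∈ K) :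
    clsP ha (fun x => f (win i α β x)) = clsP ha (fun x => f (win i α γ x)) := by
  rw [clsP_win_split ha hK i hf hα h1 h2 h3 hβ wα (fun x hx h => w x hx h.ge (h.le.trans h2))
    (fun x hx h => w x hx (h2.trans h.ge) h.le),
    clsP_win_one ha hK i hf (hα.trans h1) h2 hβ w, one_mul]

/-- One active window. -/
theorem clsP_one_win (ha : a ∈ A) (hK : Fc A a K) (i : M) {f : (M → ℝ) × ℝ → V}
    (hf : Sph p (qq A) K f) {α β : ℝ} (hα : -1 ≤ α) (h : α < β) (hβ : β ≤ 1)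
    (w : ∀ x ∈ Qb M, (x.1 i ≤ α ∨ β ≤ x.1 i) → f x ∈ K) :
    clsP ha f = clsP ha (fun x => f (win i α β x)) := by
  have w1 : Wall K i 1 f := hf.wall_end i (by norm_num)
  rw [← clsP_win_full ha i f,
    clsP_win_left ha hK i hf le_rfl hα (h.le.trans hβ) (by norm_num) le_rfl
      (fun x hx _ h2 => w x hx (Or.inl h2)) w1,
    clsP_win_right ha hK i hf hα h.le hβ (h.trans_le hβ) le_rfl
      (fun x hx h2 => w x hx (Or.inl h2.le)) (fun x hx h2 _ => w x hx (Or.inr h2))]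

/-- Two active windows. -/
theorem clsP_two_win (ha : a ∈ A) (hK : Fc A a K) (i : M) {f : (M → ℝ) × ℝ → V}
    (hf : Sph p (qq A) K f) {α β γ δ : ℝ} (hα : -1 ≤ α) (h1 : α < β) (h2 : β ≤ γ) (h3 : γ < δ)
    (hδ : δ ≤ 1)
    (w : ∀ x ∈ Qb M, (x.1 i ≤ α ∨ (β ≤ x.1 i ∧ x.1 i ≤ γ) ∨ δ ≤ x.1 i) → f x ∈ K) :
    clsP ha f = clsP ha (fun x => f (win i γ δ x)) * clsP ha (fun x => f (win i α β x)) := by
  have w1 : Wall K i 1 f := hf.wall_end i (by norm_num)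
  have wm : Wall K i (-1) f := hf.wall_end i (by norm_num)
  have wβ : Wall K i β f := fun x hx h => w x hx (Or.inr (Or.inl ⟨h.ge, h.le.trans h2⟩))
  have hβ1 : β < 1 := h2.trans_lt (h3.trans_le hδ)
  rw [← clsP_win_full ha i f,
    clsP_win_split ha hK i hf le_rfl (hα.trans h1.le) hβ1.le (by norm_num) le_rfl wm wβ w1,
    clsP_win_left ha hK i hf (hα.trans h1.le) h2 (h3.le.trans hδ) hβ1 le_rfl
      (fun x hx h4 h5 => w x hx (Or.inr (Or.inl ⟨h4, h5⟩))) w1,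
    clsP_win_right ha hK i hf (hα.trans (h1.le.trans h2)) h3.le hδ (h3.trans_le hδ) le_rfl
      (fun x hx h4 => w x hx (Or.inr (Or.inl ⟨h2.trans h4.ge, h4.le⟩)))
      (fun x hx h4 _ => w x hx (Or.inr (Or.inr h4))),
    clsP_win_left ha hK i hf le_rfl hα h1.le (hα.trans_lt h1) hβ1.le
      (fun x hx _ h5 => w x hx (Or.inl h5)) wβ]

/-- Three active windows. -/
theorem clsP_three_win (ha : a ∈ A) (hK : Fc A a K) (i : M) {f : (M → ℝ) × ℝ → V}
    (hf : Sph p (qq A) K f) {α β γ δ ε ζ : ℝ} (hα : -1 ≤ α) (h1 : α < β) (h2 : β ≤ γ)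
    (h3 : γ < δ) (h4 : δ ≤ ε) (h5 : ε < ζ) (hζ : ζ ≤ 1)
    (w : ∀ x ∈ Qb M, (x.1 i ≤ α ∨ (β ≤ x.1 i ∧ x.1 i ≤ γ) ∨ (δ ≤ x.1 i ∧ x.1 i ≤ ε) ∨
      ζ ≤ x.1 i) → f x ∈ K) :
    clsP ha f = clsP ha (fun x => f (win i ε ζ x)) * (clsP ha (fun x => f (win i γ δ x)) *
      clsP ha (fun x => f (win i α β x))) := by
  have w1 : Wall K i 1 f := hf.wall_end i (by norm_num)
  have wm : Wall K i (-1) f := hf.wall_end i (by norm_num)
  have wβ : Wall K i β f := fun x hx h => w x hx (Or.inr (Or.inl ⟨h.ge, h.le.trans h2⟩))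
  have wδ : Wall K i δ f := fun x hx h =>
    w x hx (Or.inr (Or.inr (Or.inl ⟨h.ge, h.le.trans h4⟩)))
  have hδ1 : δ < 1 := h4.trans_lt (h5.trans_le hζ)
  have hβδ : β < δ := h2.trans_lt h3
  have h1β : (-1 : ℝ) ≤ β := hα.trans h1.le
  rw [← clsP_win_full ha i f,
    clsP_win_split ha hK i hf le_rfl (h1β.trans hβδ.le) hδ1.le (by norm_num) le_rfl wm wδ w1,
    clsP_win_left ha hK i hf (h1β.trans hβδ.le) h4 (h5.le.trans hζ) hδ1 le_rfl
      (fun x hx h6 h7 => w x hx (Or.inr (Or.inr (Or.inl ⟨h6, h7⟩)))) w1,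
    clsP_win_right ha hK i hf (h1β.trans (hβδ.le.trans h4)) h5.le hζ (h5.trans_le hζ) le_rfl
      (fun x hx h6 => w x hx (Or.inr (Or.inr (Or.inl ⟨h4.trans h6.ge, h6.le⟩))))
      (fun x hx h6 _ => w x hx (Or.inr (Or.inr (Or.inr h6)))),
    clsP_win_split ha hK i hf le_rfl h1β hβδ.le (h1β.trans_lt hβδ) hδ1.le wm wβ wδ,
    clsP_win_left ha hK i hf h1β h2 h3.le hβδ hδ1.le
      (fun x hx h6 h7 => w x hx (Or.inr (Or.inl ⟨h6, h7⟩))) wδ,
    clsP_win_left ha hK i hf le_rfl hα h1.le (hα.trans_lt h1) (hβδ.le.trans hδ1.le)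
      (fun x hx _ h7 => w x hx (Or.inl h7)) wβ]

end Vale.Agent.P268.T.R996
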